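import Vale.Agent.P366.H208.G.Null
import Vale.Agent.P366.H896.L.Glue
import Vale.Agent.P366.H707.L.Stokes

/-! The divergences of the flux fields are nonnegative if the dominant energy condition holds at the
points of the hypersurface. -/

open MeasureTheory Metric Filter Topology Set
open scoped ContDiff ENNReal

noncomputable section
namespace Vale.Agent.P366.KSL

open Vale.Agent.P366 (pd E flux)
open Vale.Agent.P366.H353.N
open Vale.Agent.P366.Kerr (NullCone Psi pt sp sgn ksL ein IsKS FutTimelike DECatL IsGraph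
  IsSliceL HasDEC)
open Vale.Agent.P366.KSN (Y OO mem_OO isOpen_OO Y_cont dts sg)

variable {n : ℕ} {C : NullCone n} {l : Fin (n + 1) → E (n + 1) → ℝ} {V : E (n + 1) → ℝ}
  {f f₁ : E n → ℝ} {D : Stmt.Exterior n} {p : E (n + 1)} {x y : E n}

theorem ekk_zero (hK : IsKS l V p) (h : ∃ κ : ℝ, ∀ a, acc l a p = κ * l a p) : ekk l V p = 0 := by
  obtain ⟨κ, hκ⟩ := h
  rw [n_ekk hK]
  have e : ∑ a, sgn a * acc l a p ^ 2 = κ ^ 2 * ∑ a, sgn a * l a p ^ 2 := by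
    rw [Finset.mul_sum]
    refine Finset.sum_congr rfl fun a _ => ?_
    rw [hκ a]; ring
  rw [e, hK.null.self_of_nhds]; ring

/-- At each point of the hypersurface `V = 0` or the congruence is geodesic. -/
theorem geo_at (hD : HasDEC C l V f f₁ D) (hy : 0 ≤ D.F y) : V (pt (f₁ y) y) = 0 ∨
    ∃ κ : ℝ, ∀ a, acc l a (pt (f₁ y) y) = κ * l a (pt (f₁ y) y) := by
  have hK := hD.ks y hy
  rcases lt_trichotomy (V (pt (f₁ y) y)) 0 with h | h | h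
  · exact Or.inr (hD.geo y hy h)
  · exact Or.inl h
  · exact Or.inr (geo_of_dec hK.null.self_of_nhds hK.fut (hD.dec y hy) h (n_ekk hK)
      (n_l_acc hK)).1

/-- [V2] positivity -/
theorem pos_at (hD : HasDEC C l V f f₁ D) (hy : 0 ≤ D.F y) {X ξ : Fin (n + 1) → ℝ}
    (hX : ∑ i : Fin n, X i.succ ^ 2 ≤ X 0 ^ 2) (hX0 : 0 ≤ X 0)
    (hξ : ∑ i : Fin n, ξ i.succ ^ 2 ≤ ξ 0 ^ 2) (hξ0 : 0 ≤ ξ 0) :
    0 ≤ ∑ a, ∑ b, sgn a * X a * Gm l V a b (pt (f₁ y) y) * ξ b := by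
  have hK := hD.ks y hy
  exact posT0 hK.null.self_of_nhds hK.fut (n_ein_symm hK)
    ((geo_at hD hy).imp_right (ekk_zero hK)) (hD.dec y hy) hX hX0 hξ hξ0

theorem geo_near (hD : HasDEC C l V f f₁ D) (hy : ∀ᶠ z in 𝓝 y, 0 ≤ D.F z) :
    V (pt (f₁ y) y) = 0 ∨ ∀ᶠ z in 𝓝 y, ∃ κ : ℝ, ∀ a,
      acc l a (pt (f₁ z) z) = κ * l a (pt (f₁ z) z) := by
  have hy0 := hy.self_of_nhds
  have hK := hD.ks y hy0
  by_cases hV : V (pt (f₁ y) y) = 0
  · exact Or.inl hV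
  · have hc : ContinuousAt (fun z => V (pt (f₁ z) z)) y :=
      ContinuousAt.comp (g := V) (f := fun z => pt (f₁ z) z) hK.smV.continuousAt
        (gr_smooth (hD.smf y hy0)).continuousAt
    right
    filter_upwards [hc.eventually_ne hV, hy] with z hz hz0
    exact (geo_at hD hz0).resolve_left hz

/-- the divergences of the flux fields at interior points -/
theorem div_near (hD : HasDEC C l V f f₁ D) (hy : ∀ᶠ z in 𝓝 y, 0 ≤ D.F z) {ξ : Fin (n + 1) → ℝ}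
    (hξ : ∑ i : Fin n, ξ i.succ ^ 2 ≤ ξ 0 ^ 2) (hξ0 : 0 ≤ ξ 0) :
    0 ≤ -∑ b, ξ b * ∑ i, pd i (Zf l V f₁ b i) y := by
  have hy0 := hy.self_of_nhds
  have hf : DifferentiableAt ℝ f₁ y := (hD.smf y hy0).differentiableAt (by simp)
  simp only [n_div_Z (hD.smf y hy0) (hD.ks y hy0) (geo_near hD hy)]
  -- the vector `(1, ∇f)`
  set X : Fin (n + 1) → ℝ := Fin.cons 1 (fun j => pd j f₁ y) with hX
  have h2 := pos_at hD hy0 (X := X) (ξ := ξ) ?_ ?_ hξ hξ0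
  · have e2 : ∑ c, ∑ b, sgn c * X c * Gm l V c b (pt (f₁ y) y) * ξ b =
        -∑ b, ξ b * (Gm l V 0 b (pt (f₁ y) y) -
          ∑ j : Fin n, pd j f₁ y * Gm l V j.succ b (pt (f₁ y) y)) := by
      rw [Finset.sum_comm, ← Finset.sum_neg_distrib]
      refine Finset.sum_congr rfl fun b _ => ?_
      rw [Fin.sum_univ_succ]
      simp only [hX, Fin.cons_zero, Fin.cons_succ, sgn, if_true, Fin.succ_ne_zero, if_false,
        one_mul]
      rw [← Finset.sum_mul]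
      ring
    rw [e2] at h2
    exact h2
  · simp only [hX, Fin.cons_succ, Fin.cons_zero]
    refine le_trans (le_of_eq (Finset.sum_congr rfl fun i _ => ?_))
      ((hD.len y hy0).trans (by norm_num))
    rw [KSN.stmt_pd hf]
  · simp [hX]

/-- the points outside the surface are interior points -/
theorem int_Y (dom : ∀ y, 0 ≤ D.F y ↔ ∃ x, x ≠ 0 ∧ C.U x ≤ ‖x‖ ∧ Psi C.H x = y) {s : ℝ}
    (hx : ‖x‖ = 1) (hs : C.U x < s) : ∀ᶠ z in 𝓝 (Y C.H x s), 0 ≤ D.F z := by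
  filter_upwards [(isOpen_OO C).mem_nhds (mem_OO.2 ⟨x, s, hx, hs, rfl⟩)] with z hz
  obtain ⟨x', s', hx', hs', rfl⟩ := mem_OO.1 hz
  exact (dom_iff dom).2 ⟨x', s', hx', hs'.le, rfl⟩

/-- a closed condition which holds at the interior points holds at the points of the boundary -/
theorem ext_cl (dom : ∀ y, 0 ≤ D.F y ↔ ∃ x, x ≠ 0 ∧ C.U x ≤ ‖x‖ ∧ Psi C.H x = y) {g : E n → ℝ}
    (hc : ∀ y, 0 ≤ D.F y → ContinuousAt g y)
    (hg : ∀ y, (∀ᶠ z in 𝓝 y, 0 ≤ D.F z) → 0 ≤ g y) (hy : 0 ≤ D.F y) : 0 ≤ g y := by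
  obtain ⟨x, s, hx, hs, rfl⟩ := (dom_iff dom).1 hy
  have h1 : Tendsto (fun t => g (Y C.H x t)) (𝓝[>] s) (𝓝 (g (Y C.H x s))) := by
    have h2 : ContinuousAt (fun t => g (Y C.H x t)) s :=
      ContinuousAt.comp (g := g) (f := Y C.H x) (hc _ hy) (Y_cont C.H x).continuousAt
    exact h2.tendsto.mono_left nhdsWithin_le_nhds
  refine ge_of_tendsto h1 ?_
  filter_upwards [self_mem_nhdsWithin] with t ht
  exact hg _ (int_Y dom hx (hs.trans_lt ht))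

/-- the divergences of the flux fields -/
theorem div_Zpos (dom : ∀ y, 0 ≤ D.F y ↔ ∃ x, x ≠ 0 ∧ C.U x ≤ ‖x‖ ∧ Psi C.H x = y)
    (hD : HasDEC C l V f f₁ D) {ξ : Fin (n + 1) → ℝ} (hξ : ∑ i : Fin n, ξ i.succ ^ 2 ≤ ξ 0 ^ 2)
    (hξ0 : 0 ≤ ξ 0) (hy : 0 ≤ D.F y) : 0 ≤ -∑ b, ξ b * ∑ i, pd i (Zf l V f₁ b i) y := by
  refine ext_cl dom (g := fun y => -∑ b, ξ b * ∑ i, pd i (Zf l V f₁ b i) y) (fun z hz => ?_)
    (fun z hz => div_near hD hz hξ hξ0) hy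
  refine ContinuousAt.neg (tendsto_finsetSum _ fun b _ => ContinuousAt.mul continuousAt_const
    (tendsto_finsetSum _ fun i _ => ?_))
  exact (KSN.X5.cd_pd (Z_smooth hD.toIsGraph hz b i) i).continuousAt

/-- the boundary term -/
theorem Z_bdrD (dom : ∀ y, 0 ≤ D.F y ↔ ∃ x, x ≠ 0 ∧ C.U x ≤ ‖x‖ ∧ Psi C.H x = y)
    (hD : HasDEC C l V f f₁ D) (nor : ∀ x, x ≠ 0 → ‖x‖ = C.U x → ∀ i : Fin n,
      l i.succ (pt (- C.U x) (Psi C.H x)) = l 0 (pt (- C.U x) (Psi C.H x)) * (x i / ‖x‖))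
    (hx : ‖x‖ = 1) (b : Fin (n + 1)) :
    dts C.H (C.U x) x * ∑ i, Zf l V f₁ b i (Y C.H x (C.U x)) * (x i - C.toDat.b x i) =
      -(1 / 2 * (V (pt (- C.U x) (Y C.H x (C.U x))) * l 0 (pt (- C.U x) (Y C.H x (C.U x))) ^ 2 *
        sg C.H (C.U x) x)) * lx x b := by
  have hy : 0 ≤ D.F (Y C.H x (C.U x)) := (dom_iff dom).2 ⟨x, C.U x, hx, le_rfl, rfl⟩
  have hU := C.pos x (ne_zero_of_one hx)
  have hfb : f₁ (Y C.H x (C.U x)) = - C.U x := by
    have h := hD.bdr (C.U x • x) (smul_ne_zero hU.ne' (ne_zero_of_one hx)) (by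
      rw [KSN.U_smul C (ne_zero_of_one hx) hU, KSN.norm_smul_unit hx hU.le])
    rwa [KSN.Y_eq C hx hU, KSN.U_smul C (ne_zero_of_one hx) hU] at h
  have hK := hD.ks _ hy
  have hg := geo_at hD hy
  rw [hfb] at hK hg
  exact n_Z_bdr (hD.smf _ hy) hD.bdr hK hg nor hx b

end Vale.Agent.P366.KSL
end
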