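import Vale.Agent.P366.H208.CL.KAlg

/-! Metrics `g = δ + F df ⊗ df`: algebra of the Hessian. -/

noncomputable section
namespace Vale.Agent.P366.FGA

variable {n : ℕ} {p b q v : Fin n → ℝ} {A : Fin n → Fin n → ℝ} {G w r : ℝ}

/-- the letters of the Hessian -/
def HH (p b : Fin n → ℝ) (A : Fin n → Fin n → ℝ) (r w : ℝ) (i j : Fin n) : ℝ :=
  (A i j - b i * p j - p i * b j - r * p i * p j) / w

lemma HH_symm (hA : ∀ i j, A i j = A j i) (i j : Fin n) : HH p b A r w i j = HH p b A r w j i := by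
  unfold HH
  rw [hA i j]
  ring

lemma HH_diag (hG : ∑ i, p i ^ 2 = G) (hb : ∑ i, p i * b i = 0) :
    ∑ i, HH p b A r w i i = (∑ i, A i i - r * G) / w := by
  unfold HH
  rw [← Finset.sum_div]
  congr 1
  have e : ∀ i, A i i - b i * p i - p i * b i - r * p i * p i =
      A i i - 2 * (p i * b i) - r * p i ^ 2 := fun i => by ring
  simp only [e, Finset.sum_sub_distrib, ← Finset.mul_sum, hb, hG]
  ring

lemma HH_p (hG : ∑ i, p i ^ 2 = G) (hb : ∑ i, p i * b i = 0)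
    (hq : ∀ i, ∑ j, A i j * p j = q i) (i : Fin n) :
    ∑ j, HH p b A r w i j * p j = (q i - G * b i - r * G * p i) / w := by
  have e : ∀ j, HH p b A r w i j * p j = (A i j * p j - b i * p j ^ 2 - p i * (p j * b j) -
      r * p i * p j ^ 2) / w := fun j => by unfold HH; ring
  simp only [e]
  rw [← Finset.sum_div]
  congr 1
  simp only [Finset.sum_sub_distrib, ← Finset.mul_sum, hb, hG, hq]
  ring

lemma HH_sq (hA : ∀ i j, A i j = A j i) (hG : ∑ i, p i ^ 2 = G) (hb : ∑ i, p i * b i = 0)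
    (hq : ∀ i, ∑ j, A i j * p j = q i) :
    ∑ i, ∑ j, HH p b A r w i j ^ 2 = (∑ i, ∑ j, A i j ^ 2 - 4 * ∑ i, q i * b i -
      2 * r * (∑ i, p i * q i) + 2 * G * (∑ i, b i ^ 2) + r ^ 2 * G ^ 2) / w ^ 2 := by
  have e : ∀ i j, HH p b A r w i j ^ 2 = (A i j ^ 2 + b i ^ 2 * p j ^ 2 + p i ^ 2 * b j ^ 2 +
      r ^ 2 * p i ^ 2 * p j ^ 2 - 2 * b i * (A i j * p j) - 2 * p i * (A i j * b j) -
      2 * r * p i * (A i j * p j) + 2 * (p i * b i) * (p j * b j) +
      2 * r * (p i * b i) * p j ^ 2 + 2 * r * p i ^ 2 * (p j * b j)) / w ^ 2 := fun i j => by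
    unfold HH
    ring
  have h1 : ∑ i, p i * ∑ j, A i j * b j = ∑ i, q i * b i := by
    simp only [Finset.mul_sum]
    rw [Finset.sum_comm]
    refine Finset.sum_congr rfl fun j _ => ?_
    rw [← hq j, Finset.sum_mul]
    exact Finset.sum_congr rfl fun i _ => by rw [hA j i]; ring
  have h2 : ∑ i, b i * q i = ∑ i, q i * b i := Finset.sum_congr rfl fun i _ => by ring
  simp only [e, ← Finset.sum_div]
  congr 1
  simp only [Finset.sum_add_distrib, Finset.sum_sub_distrib, ← Finset.mul_sum, hb, hG, hq]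
  simp only [mul_zero, add_zero, Finset.sum_const_zero, zero_mul]
  have g1 : ∑ i, b i ^ 2 * G = (∑ i, b i ^ 2) * G := (Finset.sum_mul ..).symm
  have g2 : ∑ i, p i ^ 2 * ∑ i, b i ^ 2 = G * ∑ i, b i ^ 2 := by rw [← Finset.sum_mul, hG]
  have g3 : ∑ i, r ^ 2 * p i ^ 2 * G = r ^ 2 * G * G := by
    rw [← Finset.sum_mul, ← Finset.mul_sum, hG]
  have g4 : ∑ i, 2 * b i * q i = 2 * ∑ i, q i * b i := by
    rw [← h2, Finset.mul_sum]
    exact Finset.sum_congr rfl fun i _ => by ring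
  have g5 : ∑ i, 2 * p i * ∑ j, A i j * b j = 2 * ∑ i, q i * b i := by
    rw [← h1, Finset.mul_sum]
    exact Finset.sum_congr rfl fun i _ => by ring
  have g6 : ∑ i, 2 * r * p i * q i = 2 * r * ∑ i, p i * q i := by
    rw [Finset.mul_sum]
    exact Finset.sum_congr rfl fun i _ => by ring
  have g7 : ∑ i, 2 * r * (p i * b i) * G = 0 := by
    rw [← Finset.sum_mul, ← Finset.mul_sum, hb]
    ring
  rw [g1, g2, g3, g4, g5, g6, g7]
  ring

/-- the square of the covector `H(∂f)` -/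
lemma cc_sq (hG : ∑ i, p i ^ 2 = G) (hb : ∑ i, p i * b i = 0) :
    ∑ i, ((q i - G * b i - r * G * p i) / w) ^ 2 = (∑ i, q i ^ 2 + G ^ 2 * (∑ i, b i ^ 2) +
      r ^ 2 * G ^ 3 - 2 * G * (∑ i, q i * b i) - 2 * r * G * ∑ i, p i * q i) / w ^ 2 := by
  have e : ∀ i, ((q i - G * b i - r * G * p i) / w) ^ 2 = (q i ^ 2 + G ^ 2 * b i ^ 2 +
      r ^ 2 * G ^ 2 * p i ^ 2 - 2 * G * (q i * b i) - 2 * r * G * (p i * q i) +
      2 * r * G ^ 2 * (p i * b i)) / w ^ 2 := fun i => by ring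
  simp only [e, ← Finset.sum_div]
  congr 1
  simp only [Finset.sum_add_distrib, Finset.sum_sub_distrib, ← Finset.mul_sum, hb, hG]
  ring

lemma cc_dot (a : Fin n → ℝ) : ∑ i, a i * ((q i - G * b i - r * G * p i) / w) =
    (∑ i, a i * q i - G * (∑ i, a i * b i) - r * G * ∑ i, a i * p i) / w := by
  have e : ∀ i, a i * ((q i - G * b i - r * G * p i) / w) = (a i * q i - G * (a i * b i) -
      r * G * (a i * p i)) / w := fun i => by ring
  simp only [e, ← Finset.sum_div]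
  congr 1
  simp only [Finset.sum_sub_distrib, ← Finset.mul_sum]

/-- the identity for the quadratic part -/
lemma key {F U A2 Dl pq qq qb bb vp vq vb : ℝ} (hw : w = 1 + F * G) (h0 : w ≠ 0) :
    U * w * (((vq - G * vb - r * G * vp) / w - F / w * vp * ((pq - r * G ^ 2) / w)) / w -
      ((Dl - r * G) / w - F / w * ((pq - r * G ^ 2) / w)) * vp / w) +
    U ^ 2 * w * (((A2 - 4 * qb - 2 * r * pq + 2 * G * bb + r ^ 2 * G ^ 2) / w ^ 2 -
      2 * (F / w) * ((qq + G ^ 2 * bb + r ^ 2 * G ^ 3 - 2 * G * qb - 2 * r * G * pq) / w ^ 2) +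
      (F / w) ^ 2 * ((pq - r * G ^ 2) / w) ^ 2) -
      ((Dl - r * G) / w - F / w * ((pq - r * G ^ 2) / w)) ^ 2) / 2 +
    (U * (Dl * vp - vq) / w + U ^ 2 * (Dl ^ 2 - A2) / (2 * w) -
      U ^ 2 * (2 * (r * G * Dl - qb - r * pq + F * (Dl * pq - qq))) / (2 * w ^ 2)) =
    (U ^ 2 * G * bb - U ^ 2 * qb - U * w * G * vb) / w ^ 2 := by
  have hG : F * G = w - 1 := by rw [hw]; ring
  field_simp
  rw [hw]
  ring

end Vale.Agent.P366.FGA
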