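import Vale.Agent.P366.H208.L.AFd
import Vale.Agent.P366.H896.N.X1

/-! Consequences of the dominant energy condition at a point of a Kerr-Schild spacetime with an
arbitrary null covector field. -/

open MeasureTheory Metric Filter Topology Set
open scoped ContDiff ENNReal

noncomputable section
namespace Vale.Agent.P366.KSL

open Vale.Agent.P366 (pd E)
open Vale.Agent.P366.H353.N
open Vale.Agent.P366.Kerr (sgn ksL ein FutTimelike DECatL)
open Vale.Agent.P366.KSN.X1 (Bf Bf_lin lim_nonneg)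

variable {n : ℕ}

/-! ### linear algebra -/

/-- the isometry from the Minkowski metric to `η + v L ⊗ L` -/
def ph (L : Fin (n + 1) → ℝ) (v : ℝ) (X : Fin (n + 1) → ℝ) (a : Fin (n + 1)) : ℝ :=
  X a - v / 2 * (∑ b, L b * X b) * (sgn a * L a)

/-- the future null vector `- k` -/
def Kv (L : Fin (n + 1) → ℝ) (a : Fin (n + 1)) : ℝ := - (sgn a * L a)

/-- `∂_t` -/
def eN (a : Fin (n + 1)) : ℝ := if a = 0 then 1 else 0

theorem ph_lin (L : Fin (n + 1) → ℝ) (v : ℝ) (X Y : Fin (n + 1) → ℝ) (t : ℝ) :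
    ph L v (fun a => X a + t * Y a) = fun a => ph L v X a + t * ph L v Y a := by
  funext a
  unfold ph
  have e : ∑ b, L b * (X b + t * Y b) = ∑ b, L b * X b + t * ∑ b, L b * Y b := by
    rw [Finset.mul_sum, ← Finset.sum_add_distrib]
    exact Finset.sum_congr rfl fun b _ => by ring
  rw [e]; ring

section cone

variable {L : Fin (n + 1) → ℝ} {v : ℝ} {T : Fin (n + 1) → Fin (n + 1) → ℝ}

theorem null_sum (hn : ∑ a, sgn a * L a ^ 2 = 0) : ∑ i : Fin n, L i.succ ^ 2 = L 0 ^ 2 := by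
  rw [Fin.sum_univ_succ, sgn_zero] at hn
  simp only [sgn_succ, one_mul] at hn
  linarith

theorem l_ph (hn : ∑ a, sgn a * L a ^ 2 = 0) (X : Fin (n + 1) → ℝ) :
    ∑ a, L a * ph L v X a = ∑ a, L a * X a := by
  unfold ph
  have e : ∀ a, L a * (X a - v / 2 * (∑ b, L b * X b) * (sgn a * L a)) =
      L a * X a - v / 2 * (∑ b, L b * X b) * (sgn a * L a ^ 2) := fun a => by ring
  simp only [e, Finset.sum_sub_distrib, ← Finset.mul_sum]
  rw [hn, mul_zero, sub_zero]

theorem g_ph (hn : ∑ a, sgn a * L a ^ 2 = 0) (X : Fin (n + 1) → ℝ) :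
    ∑ a, ∑ b, ((if a = b then sgn a else 0) + v * L a * L b) * ph L v X a * ph L v X b =
      ∑ a, sgn a * X a ^ 2 := by
  have e1 : ∀ a b, ((if a = b then sgn a else 0) + v * L a * L b) * ph L v X a * ph L v X b =
      (if a = b then sgn a else 0) * ph L v X a * ph L v X b +
      v * ((L a * ph L v X a) * (L b * ph L v X b)) := fun a b => by ring
  simp only [e1, Finset.sum_add_distrib, ← Finset.mul_sum, ← Finset.sum_mul]
  rw [l_ph hn]
  have e2 : ∑ a, ∑ b, (if a = b then (sgn a : ℝ) else 0) * ph L v X a * ph L v X b =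
      ∑ a, sgn a * ph L v X a ^ 2 := by
    refine Finset.sum_congr rfl fun a _ => ?_
    simp only [ite_mul, zero_mul, Finset.sum_ite_eq, Finset.mem_univ, if_true]
    ring
  rw [e2]
  have e3 : ∀ a, sgn a * ph L v X a ^ 2 = sgn a * X a ^ 2 -
      v * (∑ b, L b * X b) * ((sgn a * sgn a) * (L a * X a)) +
      (v / 2 * (∑ b, L b * X b)) ^ 2 * ((sgn a * sgn a) * (sgn a * L a ^ 2)) := by
    intro a; unfold ph; ring
  simp only [e3, sgn_sq, one_mul, Finset.sum_add_distrib, Finset.sum_sub_distrib, ← Finset.mul_sum]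
  rw [hn]; ring

theorem l_nonneg (hn : ∑ a, sgn a * L a ^ 2 = 0) (h0 : 0 < L 0) {X : Fin (n + 1) → ℝ}
    (hX : ∑ i : Fin n, X i.succ ^ 2 ≤ X 0 ^ 2) (hX0 : 0 ≤ X 0) : 0 ≤ ∑ a, L a * X a := by
  rw [Fin.sum_univ_succ]
  have h1 := Finset.sum_mul_sq_le_sq_mul_sq Finset.univ (fun i : Fin n => L i.succ)
    (fun i => X i.succ)
  rw [null_sum hn] at h1
  have h2 : (∑ i : Fin n, L i.succ * X i.succ) ^ 2 ≤ (L 0 * X 0) ^ 2 := by
    calc _ ≤ L 0 ^ 2 * ∑ i : Fin n, X i.succ ^ 2 := h1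
      _ ≤ L 0 ^ 2 * X 0 ^ 2 := mul_le_mul_of_nonneg_left hX (sq_nonneg _)
      _ = _ := by ring
  have h3 := abs_le_of_sq_le_sq h2 (mul_nonneg h0.le hX0)
  linarith [(abs_le.1 h3).1]

theorem sum_eN (F : Fin (n + 1) → ℝ) : ∑ a, F a * eN a = F 0 := by
  simp [eN]

/-- the dominant energy condition passes to the closed cone -/
theorem nonneg_ph (hn : ∑ a, sgn a * L a ^ 2 = 0) (h0 : 0 < L 0)
    (hD : ∀ X Y : Fin (n + 1) → ℝ,
      ((∑ a, ∑ b, ((if a = b then sgn a else 0) + v * L a * L b) * X a * X b < 0) ∧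
        0 < ∑ a, L a * X a) →
      ((∑ a, ∑ b, ((if a = b then sgn a else 0) + v * L a * L b) * Y a * Y b < 0) ∧
        0 < ∑ a, L a * Y a) → 0 ≤ Bf T X Y) {X Y : Fin (n + 1) → ℝ}
    (hX : ∑ i : Fin n, X i.succ ^ 2 ≤ X 0 ^ 2) (hX0 : 0 ≤ X 0)
    (hY : ∑ i : Fin n, Y i.succ ^ 2 ≤ Y 0 ^ 2) (hY0 : 0 ≤ Y 0) :
    0 ≤ Bf T (ph L v X) (ph L v Y) := by
  have hF : ∀ X : Fin (n + 1) → ℝ, ∑ i : Fin n, X i.succ ^ 2 ≤ X 0 ^ 2 → 0 ≤ X 0 → ∀ t : ℝ,
      0 < t → (∑ a, ∑ b, ((if a = b then sgn a else 0) + v * L a * L b) *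
        ph L v (fun a => X a + t * eN a) a * ph L v (fun a => X a + t * eN a) b < 0) ∧
        0 < ∑ a, L a * ph L v (fun a => X a + t * eN a) a := by
    intro X hX hX0 t ht
    constructor
    · rw [g_ph hn, Fin.sum_univ_succ, sgn_zero]
      have e1 : (eN (0 : Fin (n + 1)) : ℝ) = 1 := by simp [eN]
      have e2 : ∀ i : Fin n, (eN i.succ : ℝ) = 0 := fun i => by simp [eN, Fin.succ_ne_zero]
      simp only [sgn_succ, e1, e2, mul_zero, add_zero, one_mul, mul_one]
      nlinarith [mul_nonneg ht.le hX0, mul_pos ht ht]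
    · rw [l_ph hn]
      have h1 : ∑ a, L a * (X a + t * eN a) = ∑ a, L a * X a + t * L 0 := by
        have : ∀ a, L a * (X a + t * eN a) = L a * X a + t * (L a * eN a) := fun a => by ring
        simp only [this, Finset.sum_add_distrib, ← Finset.mul_sum, sum_eN]
      rw [h1]
      have := l_nonneg hn h0 hX hX0
      have := mul_pos ht h0
      linarith
  refine lim_nonneg (b := Bf T (ph L v X) (ph L v eN) + Bf T (ph L v eN) (ph L v Y))
    (c := Bf T (ph L v eN) (ph L v eN)) fun t ht => ?_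
  have h := hD _ _ (hF X hX hX0 t ht) (hF Y hY hY0 t ht)
  rw [ph_lin, ph_lin, Bf_lin] at h
  exact h

theorem Kv_zero : Kv L 0 = L 0 := by unfold Kv; rw [sgn_zero]; ring

theorem Kv_succ (i : Fin n) : Kv L i.succ = - L i.succ := by unfold Kv; rw [sgn_succ]; ring

theorem ph_Kv (hn : ∑ a, sgn a * L a ^ 2 = 0) : ph L v (Kv L) = Kv L := by
  funext a
  unfold ph
  have e : ∑ b, L b * Kv L b = 0 := by
    have : ∀ b, L b * Kv L b = - (sgn b * L b ^ 2) := fun b => by unfold Kv; ring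
    simp only [this, Finset.sum_neg_distrib]
    rw [hn, neg_zero]
  rw [e]; ring

theorem Kv_cone (hn : ∑ a, sgn a * L a ^ 2 = 0) :
    ∑ i : Fin n, Kv L i.succ ^ 2 ≤ Kv L 0 ^ 2 := by
  simp only [Kv_zero, Kv_succ, neg_sq]
  exact (null_sum hn).le

/-- a causal vector orthogonal to a null vector is parallel to it -/
theorem par (hn : ∑ a, sgn a * L a ^ 2 = 0) (h0 : 0 < L 0) {A : Fin (n + 1) → ℝ}
    (hA : ∑ i : Fin n, A i.succ ^ 2 ≤ A 0 ^ 2) (ho : A 0 * L 0 = ∑ i : Fin n, A i.succ * L i.succ)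
    (a : Fin (n + 1)) : A a = A 0 / L 0 * L a := by
  have hL := h0.ne'
  refine Fin.cases ?_ (fun i => ?_) a
  · field_simp
  · have h1 : ∑ i : Fin n, (A i.succ - A 0 / L 0 * L i.succ) ^ 2 ≤ 0 := by
      have e : ∀ i : Fin n, (A i.succ - A 0 / L 0 * L i.succ) ^ 2 = A i.succ ^ 2 -
          2 * (A 0 / L 0) * (A i.succ * L i.succ) + (A 0 / L 0) ^ 2 * L i.succ ^ 2 :=
        fun i => by ring
      simp only [e, Finset.sum_add_distrib, Finset.sum_sub_distrib, ← Finset.mul_sum]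
      rw [← ho, null_sum hn]
      have e2 : 2 * (A 0 / L 0) * (A 0 * L 0) = 2 * A 0 ^ 2 := by field_simp
      have e3 : (A 0 / L 0) ^ 2 * L 0 ^ 2 = A 0 ^ 2 := by field_simp
      rw [e2, e3]; linarith
    have h2 : (A i.succ - A 0 / L 0 * L i.succ) ^ 2 ≤
        ∑ i : Fin n, (A i.succ - A 0 / L 0 * L i.succ) ^ 2 :=
      Finset.single_le_sum (f := fun i : Fin n => (A i.succ - A 0 / L 0 * L i.succ) ^ 2)
        (fun j _ => sq_nonneg _) (Finset.mem_univ i)
    have h3 : (A i.succ - A 0 / L 0 * L i.succ) ^ 2 = 0 :=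
      le_antisymm (h2.trans h1) (sq_nonneg _)
    have := pow_eq_zero_iff (two_ne_zero) |>.1 h3
    linarith

/-- a covector nonnegative on the future cone -/
theorem dual_cone {A : Fin (n + 1) → ℝ} (h : ∀ Y : Fin (n + 1) → ℝ,
    ∑ i : Fin n, Y i.succ ^ 2 ≤ Y 0 ^ 2 → 0 ≤ Y 0 → 0 ≤ ∑ a, A a * Y a) :
    0 ≤ A 0 ∧ ∑ i : Fin n, A i.succ ^ 2 ≤ A 0 ^ 2 := by
  have hA0 : 0 ≤ A 0 := by
    have h1 := h eN (by simp [eN, Fin.succ_ne_zero]) (by simp [eN])
    rwa [sum_eN] at h1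
  refine ⟨hA0, ?_⟩
  set ρ := √(∑ i : Fin n, A i.succ ^ 2) with hρ
  have hs : 0 ≤ ∑ i : Fin n, A i.succ ^ 2 := Finset.sum_nonneg fun i _ => sq_nonneg _
  have hρ2 : ρ ^ 2 = ∑ i : Fin n, A i.succ ^ 2 := Real.sq_sqrt hs
  have hρ0 : 0 ≤ ρ := Real.sqrt_nonneg _
  have h1 := h (Fin.cons (α := fun _ => ℝ) ρ fun i => - A i.succ) (by
    simp only [Fin.cons_zero, Fin.cons_succ, neg_sq]
    rw [hρ2]) (by simpa using hρ0)
  rw [Fin.sum_univ_succ] at h1
  simp only [Fin.cons_zero, Fin.cons_succ] at h1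
  have e : ∑ i : Fin n, A i.succ * -A i.succ = - ρ ^ 2 := by
    rw [hρ2, ← Finset.sum_neg_distrib]
    exact Finset.sum_congr rfl fun i _ => by ring
  rw [e] at h1
  rw [← hρ2]
  rcases hρ0.eq_or_lt with h2 | h2
  · rw [← h2]; nlinarith [sq_nonneg (A 0)]
  · have h3 : ρ ≤ A 0 := by
      by_contra hc
      have h4 : A 0 < ρ := not_le.1 hc
      nlinarith
    exact pow_le_pow_left₀ hρ0 h3 2

/-- `T(k, .)` is a multiple of `l` when `T(k, k) = 0` -/
theorem eigen_cone (hn : ∑ a, sgn a * L a ^ 2 = 0) (h0 : 0 < L 0)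
    (hD : ∀ X Y : Fin (n + 1) → ℝ,
      ((∑ a, ∑ b, ((if a = b then sgn a else 0) + v * L a * L b) * X a * X b < 0) ∧
        0 < ∑ a, L a * X a) →
      ((∑ a, ∑ b, ((if a = b then sgn a else 0) + v * L a * L b) * Y a * Y b < 0) ∧
        0 < ∑ a, L a * Y a) → 0 ≤ Bf T X Y) (hkk : Bf T (Kv L) (Kv L) = 0) :
    ∃ α : ℝ, ∀ b, ∑ a, sgn a * L a * T a b = α * L b := by
  set A : Fin (n + 1) → ℝ := fun b => ∑ a, Kv L a * T a b with hA
  have hB : ∀ Y : Fin (n + 1) → ℝ, Bf T (Kv L) Y = ∑ b, A b * Y b := by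
    intro Y
    unfold Bf
    rw [Finset.sum_comm]
    refine Finset.sum_congr rfl fun b _ => ?_
    rw [hA, Finset.sum_mul]
    exact Finset.sum_congr rfl fun a _ => by ring
  have hAK : ∑ b, A b * Kv L b = 0 := by rw [← hB]; exact hkk
  have h1 : ∀ Y : Fin (n + 1) → ℝ, ∑ i : Fin n, Y i.succ ^ 2 ≤ Y 0 ^ 2 → 0 ≤ Y 0 →
      0 ≤ ∑ a, A a * Y a := by
    intro Y hY hY0
    have h2 := nonneg_ph (T := T) hn h0 hD (Kv_cone hn) (by rw [Kv_zero]; exact h0.le) hY hY0
    rw [ph_Kv hn, hB] at h2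
    have e : ∑ b, A b * ph L v Y b = ∑ b, A b * Y b := by
      unfold ph
      have e1 : ∀ b, A b * (Y b - v / 2 * (∑ c, L c * Y c) * (sgn b * L b)) =
          A b * Y b + v / 2 * (∑ c, L c * Y c) * (A b * Kv L b) := fun b => by unfold Kv; ring
      simp only [e1, Finset.sum_add_distrib, ← Finset.mul_sum]
      rw [hAK, mul_zero, add_zero]
    rwa [e] at h2
  obtain ⟨h2, h3⟩ := dual_cone h1
  have ho : A 0 * L 0 = ∑ i : Fin n, A i.succ * L i.succ := by
    rw [Fin.sum_univ_succ, Kv_zero] at hAK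
    simp only [Kv_succ] at hAK
    have e : ∑ i : Fin n, A i.succ * -L i.succ = - ∑ i : Fin n, A i.succ * L i.succ := by
      rw [← Finset.sum_neg_distrib]
      exact Finset.sum_congr rfl fun i _ => by ring
    rw [e] at hAK
    linarith
  refine ⟨- (A 0 / L 0), fun b => ?_⟩
  have h4 := par hn h0 h3 ho b
  have e : ∑ a, sgn a * L a * T a b = - A b := by
    rw [hA, ← Finset.sum_neg_distrib]
    exact Finset.sum_congr rfl fun a _ => by unfold Kv; ring
  rw [e, h4]; ring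

end cone

/-! ### the Einstein tensor -/

variable {l : Fin (n + 1) → E (n + 1) → ℝ} {V : E (n + 1) → ℝ} {p : E (n + 1)}

/-- `a_a = k^b ∂_b l_a` -/
def acc (l : Fin (n + 1) → E (n + 1) → ℝ) (a : Fin (n + 1)) (p : E (n + 1)) : ℝ :=
  ∑ b, sgn b * l b p * Stmt.pd b (l a) p

/-- `G(k, k)` -/
def ekk (l : Fin (n + 1) → E (n + 1) → ℝ) (V : E (n + 1) → ℝ) (p : E (n + 1)) : ℝ :=
  ∑ a, ∑ b, ein (ksL l V) a b p * (sgn a * l a p) * (sgn b * l b p)

theorem ekk_eq (l : Fin (n + 1) → E (n + 1) → ℝ) (V : E (n + 1) → ℝ) (p : E (n + 1)) :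
    Bf (fun a b => ein (ksL l V) a b p) (Kv fun a => l a p) (Kv fun a => l a p) = ekk l V p := by
  unfold Bf ekk Kv
  exact Finset.sum_congr rfl fun a _ => Finset.sum_congr rfl fun b _ => by ring

/-- the dominant energy condition makes the congruence geodesic where `V > 0` -/
theorem geo_of_dec (hn : ∑ a, sgn a * l a p ^ 2 = 0) (h0 : 0 < l 0 p)
    (hD : DECatL (ksL l V) l p) (hV : 0 < V p)
    (hk : ekk l V p = - (V p * ∑ a, sgn a * acc l a p ^ 2))
    (ha : ∑ a, sgn a * (l a p * acc l a p) = 0) : (∃ κ : ℝ, ∀ a, acc l a p = κ * l a p) ∧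
      ekk l V p = 0 := by
  have h1 := nonneg_ph (L := fun a => l a p) (v := V p)
    (T := fun a b => ein (ksL l V) a b p) hn h0 hD (X := Kv fun a => l a p)
    (Y := Kv fun a => l a p) (Kv_cone hn) (by rw [Kv_zero]; exact h0.le) (Kv_cone hn)
    (by rw [Kv_zero]; exact h0.le)
  rw [ph_Kv hn, ekk_eq, hk] at h1
  have h2 : ∑ a, sgn a * acc l a p ^ 2 ≤ 0 := by
    by_contra hc
    have := mul_pos hV (not_le.1 hc)
    linarith
  have h3 := h2
  rw [Fin.sum_univ_succ, sgn_zero] at h3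
  simp only [sgn_succ, one_mul] at h3
  rw [Fin.sum_univ_succ, sgn_zero] at ha
  simp only [sgn_succ, one_mul] at ha
  have h4 := par (L := fun a => l a p) hn h0 (A := fun a => acc l a p) (by linarith) (by
    have e : ∑ i : Fin n, acc l i.succ p * l i.succ p = ∑ i : Fin n, l i.succ p * acc l i.succ p :=
      Finset.sum_congr rfl fun i _ => by ring
    rw [e]; linarith)
  refine ⟨⟨_, h4⟩, ?_⟩
  rw [hk]
  have e : ∑ a, sgn a * acc l a p ^ 2 = (acc l 0 p / l 0 p) ^ 2 * ∑ a, sgn a * l a p ^ 2 := by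
    rw [Finset.mul_sum]
    refine Finset.sum_congr rfl fun a _ => ?_
    have := h4 a
    rw [this]; ring
  rw [e, hn]; ring

/-- **positivity** -/
theorem posT0 (hn : ∑ a, sgn a * l a p ^ 2 = 0) (h0 : 0 < l 0 p)
    (hsym : ∀ a b, ein (ksL l V) a b p = ein (ksL l V) b a p) (hk : V p = 0 ∨ ekk l V p = 0)
    (hD : DECatL (ksL l V) l p) {X ξ : Fin (n + 1) → ℝ}
    (hX : ∑ i : Fin n, X i.succ ^ 2 ≤ X 0 ^ 2) (hX0 : 0 ≤ X 0)
    (hξ : ∑ i : Fin n, ξ i.succ ^ 2 ≤ ξ 0 ^ 2) (hξ0 : 0 ≤ ξ 0) :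
    0 ≤ ∑ a, ∑ b, sgn a * X a * Gm l V a b p * ξ b := by
  set T : Fin (n + 1) → Fin (n + 1) → ℝ := fun a b => ein (ksL l V) a b p with hT
  set L : Fin (n + 1) → ℝ := fun a => l a p with hL
  have h1 := nonneg_ph (L := L) (v := V p) (T := T) hn h0 hD hX hX0 hξ hξ0
  have hG : ∀ a b, sgn a * Gm l V a b p = T a b - V p * l a p * ∑ c, sgn c * l c p * T c b := by
    intro a b
    unfold Gm
    have e1 : ∀ c, sgn a * (Stmt.up (ksL l V) a c p * ein (ksL l V) c b p) =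
        kd a c * ((sgn a * sgn a) * T c b) -
          V p * l a p * (sgn a * sgn a) * (sgn c * l c p * T c b) := by
      intro c
      rw [up_null hn, hT]; ring
    rw [Finset.mul_sum]
    simp only [e1, sgn_sq, one_mul, mul_one, Finset.sum_sub_distrib, ← Finset.mul_sum]
    rw [KSN.sum_kd_mul]
  have hS : ∑ a, ∑ b, sgn a * X a * Gm l V a b p * ξ b =
      Bf T X ξ - V p * (∑ a, L a * X a) * ∑ b, (∑ c, sgn c * L c * T c b) * ξ b := by
    have e1 : ∀ a b, sgn a * X a * Gm l V a b p * ξ b = T a b * X a * ξ b -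
        V p * ((L a * X a) * ((∑ c, sgn c * L c * T c b) * ξ b)) := by
      intro a b
      have : sgn a * X a * Gm l V a b p * ξ b = (sgn a * Gm l V a b p) * (X a * ξ b) := by ring
      rw [this, hG]; ring
    simp only [e1, Finset.sum_sub_distrib, ← Finset.mul_sum, ← Finset.sum_mul]
    unfold Bf
    ring
  rw [hS]
  rcases hk with hV | hk
  · have e : ph L (V p) = fun X => X := by
      funext X a; unfold ph; rw [hV]; ring
    rw [e] at h1
    rw [hV]
    simpa using h1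
  · obtain ⟨α, hα⟩ := eigen_cone (L := L) (v := V p) (T := T) hn h0 hD (by rw [ekk_eq]; exact hk)
    have hα2 : ∀ a, ∑ b, T a b * (sgn b * L b) = α * L a := fun a => by
      rw [← hα a]
      exact Finset.sum_congr rfl fun b _ => by rw [hT]; simp only; rw [hsym a b]; ring
    simp only [hα]
    have e2 : Bf T (ph L (V p) X) (ph L (V p) ξ) = Bf T X ξ -
        V p / 2 * (∑ b, L b * X b) * (∑ b, (∑ a, sgn a * L a * T a b) * ξ b) -
        V p / 2 * (∑ b, L b * ξ b) * (∑ a, X a * ∑ b, T a b * (sgn b * L b)) +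
        (V p / 2) ^ 2 * (∑ b, L b * X b) * (∑ b, L b * ξ b) *
          (∑ b, (∑ a, sgn a * L a * T a b) * (sgn b * L b)) := by
      have key : ∀ (r q : ℝ) (κ : Fin (n + 1) → ℝ),
          ∑ a, ∑ b, T a b * (X a - r * κ a) * (ξ b - q * κ b) = (∑ a, ∑ b, T a b * X a * ξ b) -
            r * (∑ b, (∑ a, κ a * T a b) * ξ b) - q * (∑ a, X a * ∑ b, T a b * κ b) +
            r * q * ∑ b, (∑ a, κ a * T a b) * κ b := by
        intro r q κ
        have c1 : ∀ η : Fin (n + 1) → ℝ, ∑ b, (∑ a, κ a * T a b) * η b =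
            ∑ a, ∑ b, κ a * T a b * η b := by
          intro η
          rw [Finset.sum_comm]
          exact Finset.sum_congr rfl fun b _ => by rw [Finset.sum_mul]
        have c2 : ∑ a, X a * ∑ b, T a b * κ b = ∑ a, ∑ b, X a * (T a b * κ b) :=
          Finset.sum_congr rfl fun a _ => by rw [Finset.mul_sum]
        rw [c1, c1, c2]
        simp only [Finset.mul_sum, ← Finset.sum_add_distrib, ← Finset.sum_sub_distrib]
        exact Finset.sum_congr rfl fun a _ => Finset.sum_congr rfl fun b _ => by ring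
      have h2 := key (V p / 2 * ∑ b, L b * X b) (V p / 2 * ∑ b, L b * ξ b) fun a => sgn a * L a
      unfold Bf ph
      rw [h2]; ring
    rw [e2] at h1
    simp only [hα, hα2] at h1
    have e3 : ∑ b, α * L b * (sgn b * L b) = 0 := by
      have : ∀ b, α * L b * (sgn b * L b) = α * (sgn b * L b ^ 2) := fun b => by ring
      simp only [this, ← Finset.mul_sum]
      rw [hn, mul_zero]
    have e4 : ∑ b, α * L b * ξ b = α * ∑ b, L b * ξ b := by
      rw [Finset.mul_sum]; exact Finset.sum_congr rfl fun b _ => by ring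
    have e5 : ∑ a, X a * (α * L a) = α * ∑ a, L a * X a := by
      rw [Finset.mul_sum]; exact Finset.sum_congr rfl fun b _ => by ring
    rw [e3, e4, e5] at h1
    rw [e4]
    linarith

end Vale.Agent.P366.KSL
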