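import Vale.Agent.P366.H208.G.Lin

/-! Metrics `g = δ + F df ⊗ df`: the part of the divergence with `K`. -/

noncomputable section
namespace Vale.Agent.H208G
open Vale.Agent.P366.Stmt
open Vale.Agent.P366.FG
open Vale.Agent.P366.FGA
open Vale.Agent.P366.CLam (ns1)
open Vale.Agent.H45G (sym2)

variable {n : ℕ} {g K : Field n} {f F u : E n → ℝ} {O : Set (E n)} {y : E n}

lemma pb_zero (f F : E n → ℝ) (y : E n) : ∑ i, pd i f y * bv f F i y = 0 := by
  unfold bv
  have e : ∀ i, pd i f y * (((∑ j, pd j f y ^ 2) * pd i F y - (∑ j, pd j f y * pd j F y) *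
      pd i f y) / 2) = (∑ j, pd j f y ^ 2) / 2 * (pd i f y * pd i F y) -
      (∑ j, pd j f y * pd j F y) / 2 * pd i f y ^ 2 := fun i => by ring
  simp only [e, Finset.sum_sub_distrib, ← Finset.mul_sum]
  ring

/-- the inverse metric is inverse to the metric -/
lemma up_mul (hg : ∀ i j, g y i j = lvlMetric f F y i j) (hw : wsq f F y ≠ 0) (i j : Fin n) :
    ∑ a, up g a i y * g y a j = if i = j then 1 else 0 := by
  have e : ∀ a, up g a i y * g y a j = (if a = i then (if a = j then 1 else 0) +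
      F y * pd a f y * pd j f y else 0) - (if a = j then F y / wsq f F y * pd a f y *
      pd i f y else 0) - F y / wsq f F y * F y * pd i f y * pd j f y * pd a f y ^ 2 := by
    intro a
    rw [up_lvl hg hw, hg]
    unfold lvlMetric
    split_ifs <;> ring
  have h2 : F y * ∑ k, pd k f y ^ 2 = wsq f F y - 1 := by unfold wsq; ring
  simp only [e, Finset.sum_sub_distrib, ← Finset.mul_sum, Finset.sum_ite_eq', Finset.mem_univ,
    if_true]
  have h3 : F y / wsq f F y * F y * pd i f y * pd j f y * ∑ k, pd k f y ^ 2 =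
      F y / wsq f F y * pd i f y * pd j f y * (wsq f F y - 1) := by rw [← h2]; ring
  rw [h3]
  have h4 : F y / wsq f F y * wsq f F y = F y := div_mul_cancel₀ _ hw
  linear_combination (-(pd i f y * pd j f y)) * h4

/-- the identity for the quadratic part, for the metric `g` -/
lemma quad_part (hf : Smooth f) (hF : Smooth F) (hu : Smooth u) (hO : IsOpen O) (hy : y ∈ O)
    (hg : ∀ z ∈ O, ∀ i j, g z i j = lvlMetric f F z i j) (hw : 0 < wsq f F y) :
    u y * wsq f F y * (∑ i, ∑ j, momT g (hess g f) y i j * grad g u i y * grad g f j y) +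
      u y ^ 2 * wsq f F y * (normSq g (hess g f) y - tr g (hess g f) y ^ 2) / 2 +
      ∑ i, pd i (X2 f F u i) y =
    -(ee f F u y - (∑ i, bv f F i y * (bv f F i y + F y * Vale.Agent.P366.FG.hf f i y)) /
      wsq f F y ^ 2) := by
  have hw0 : wsq f F y ≠ 0 := hw.ne'
  have hgy := hg y hy
  -- the letters
  obtain ⟨p, hp⟩ : ∃ p : Fin n → ℝ, p = fun i => pd i f y := ⟨_, rfl⟩
  obtain ⟨b, hb⟩ : ∃ b : Fin n → ℝ, b = fun i => bv f F i y := ⟨_, rfl⟩
  obtain ⟨q, hq⟩ : ∃ q : Fin n → ℝ, q = fun i => Vale.Agent.P366.FG.hf f i y := ⟨_, rfl⟩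
  obtain ⟨v, hv⟩ : ∃ v : Fin n → ℝ, v = fun i => pd i u y := ⟨_, rfl⟩
  obtain ⟨A, hA⟩ : ∃ A : Fin n → Fin n → ℝ, A = fun i j => pd i (pd j f) y := ⟨_, rfl⟩
  obtain ⟨G, hG⟩ : ∃ G, G = ∑ j, pd j f y ^ 2 := ⟨_, rfl⟩
  obtain ⟨r, hr⟩ : ∃ r, r = (∑ k, pd k f y * pd k F y) / 2 := ⟨_, rfl⟩
  obtain ⟨w, hww⟩ : ∃ w, w = wsq f F y := ⟨_, rfl⟩
  have hW : w = 1 + F y * G := by rw [hww, hG]; rfl
  have hAs : ∀ i j, A i j = A j i := fun i j => by
    rw [hA]
    exact congrFun (sym2 hf i j) y
  have hGp : ∑ i, p i ^ 2 = G := by rw [hp, hG]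
  have hpb : ∑ i, p i * b i = 0 := by rw [hp, hb]; exact pb_zero f F y
  have hqA : ∀ i, ∑ j, A i j * p j = q i := fun i => by rw [hA, hp, hq]; rfl
  have hH : ∀ i j, hess g f y i j = HH p b A r w i j := fun i j => by
    rw [hess_lvl hf hF hO hy hg hw0]
    unfold HH
    rw [hp, hb, hA, hr, hww]
  have hup : ∀ i j, up g i j y = (if i = j then 1 else 0) - F y / w * p i * p j := fun i j => by
    rw [up_lvl hgy hw0, hp, hww]
  have hw' : w ≠ 0 := by rw [hww]; exact hw0
  -- the covector `c`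
  have hc : ∀ i, ∑ j, HH p b A r w i j * p j = (q i - G * b i - r * G * p i) / w :=
    HH_p hGp hpb hqA
  have hν : ∑ i, (q i - G * b i - r * G * p i) / w * p i = (∑ i, p i * q i - r * G ^ 2) / w := by
    have h1 := cc_dot (p := p) (b := b) (q := q) (G := G) (w := w) (r := r) p
    have h2 : ∑ i, p i * p i = G := by
      rw [← hGp]
      exact Finset.sum_congr rfl fun i _ => by ring
    rw [hpb, h2] at h1
    calc _ = ∑ i, p i * ((q i - G * b i - r * G * p i) / w) :=
          Finset.sum_congr rfl fun i _ => mul_comm _ _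
      _ = _ := by rw [h1]; ring
  -- the trace
  have htr : tr g (hess g f) y = (∑ i, A i i - r * G) / w -
      F y / w * ((∑ i, p i * q i - r * G ^ 2) / w) := by
    unfold tr
    have e : ∀ i j, up g i j y * hess g f y i j = (if i = j then HH p b A r w i j else 0) -
        F y / w * (HH p b A r w i j * p j * p i) := by
      intro i j
      rw [hup, hH]
      split_ifs <;> ring
    simp only [e, Finset.sum_sub_distrib, Finset.sum_ite_eq, Finset.mem_univ, if_true,
      ← Finset.mul_sum, ← Finset.sum_mul]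
    rw [HH_diag hGp hpb]
    simp only [hc]
    rw [hν]
  -- the norm
  have hns : normSq g (hess g f) y = (∑ i, ∑ j, A i j ^ 2 - 4 * (∑ i, q i * b i) -
      2 * r * (∑ i, p i * q i) + 2 * G * (∑ i, b i ^ 2) + r ^ 2 * G ^ 2) / w ^ 2 -
      2 * (F y / w) * ((∑ i, q i ^ 2 + G ^ 2 * (∑ i, b i ^ 2) +
        r ^ 2 * G ^ 3 - 2 * G * (∑ i, q i * b i) - 2 * r * G * ∑ i, p i * q i) / w ^ 2) +
      (F y / w) ^ 2 * ((∑ i, p i * q i - r * G ^ 2) / w) ^ 2 := by
    unfold normSq
    simp only [hup, hH]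
    rw [ns1 (a := p) (ω := F y / w) (HH_symm hAs) hc hν, HH_sq hAs hGp hpb hqA, cc_sq hGp hpb]
  -- the momentum part
  have hgu : ∀ i, grad g u i y = v i - F y / w * (∑ j, p j * v j) * p i := fun i => by
    rw [grad_lvl hgy hw0, hp, hv, hww]
  have hgf : ∀ i, grad g f i y = p i / w := fun i => by rw [grad_f hgy hw0, hp, hww]
  have hgp : ∀ i, ∑ j, g y i j * p j = w * p i := by
    intro i
    have e : ∀ j, g y i j * p j = (if i = j then p j else 0) + F y * p i * p j ^ 2 := by
      intro j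
      rw [hgy i j]
      unfold lvlMetric
      rw [hp]
      split_ifs <;> ring
    simp only [e, Finset.sum_add_distrib, ← Finset.mul_sum, Finset.sum_ite_eq, Finset.mem_univ,
      if_true]
    rw [hGp, hW]
    ring
  obtain ⟨t, ht⟩ : ∃ t, t = tr g (hess g f) y := ⟨_, rfl⟩
  have hM1 : ∀ i, ∑ j, momT g (hess g f) y i j * grad g u i y * grad g f j y =
      grad g u i y * ((q i - G * b i - r * G * p i) / w) / w - t * (grad g u i y * p i) := by
    intro i
    have e : ∀ j, momT g (hess g f) y i j * grad g u i y * grad g f j y =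
        grad g u i y / w * (HH p b A r w i j * p j) -
        grad g u i y / w * t * (g y i j * p j) := by
      intro j
      unfold momT
      rw [hgf, hH, ← ht]
      ring
    simp only [e, Finset.sum_sub_distrib, ← Finset.mul_sum]
    rw [hc, hgp]
    field_simp
  have hM : ∑ i, ∑ j, momT g (hess g f) y i j * grad g u i y * grad g f j y =
      ((∑ i, v i * q i - G * (∑ i, v i * b i) - r * G * ∑ i, p i * v i) / w -
        F y / w * (∑ i, p i * v i) * ((∑ i, p i * q i - r * G ^ 2) / w)) / w -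
      t * (∑ i, p i * v i) / w := by
    simp only [hM1, Finset.sum_sub_distrib, ← Finset.mul_sum]
    have a1 : ∑ i, grad g u i y * ((q i - G * b i - r * G * p i) / w) / w =
        ((∑ i, v i * q i - G * (∑ i, v i * b i) - r * G * ∑ i, p i * v i) / w -
        F y / w * (∑ i, p i * v i) * ((∑ i, p i * q i - r * G ^ 2) / w)) / w := by
      rw [← Finset.sum_div]
      congr 1
      have e : ∀ i, grad g u i y * ((q i - G * b i - r * G * p i) / w) =
          v i * ((q i - G * b i - r * G * p i) / w) -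
          F y / w * (∑ j, p j * v j) * ((q i - G * b i - r * G * p i) / w * p i) := fun i => by
        rw [hgu]
        ring
      simp only [e, Finset.sum_sub_distrib, ← Finset.mul_sum]
      rw [hν, cc_dot v]
      have e2 : ∑ i, v i * p i = ∑ i, p i * v i := Finset.sum_congr rfl fun i _ => mul_comm _ _
      rw [e2]
    have a2 : ∑ i, grad g u i y * p i = (∑ i, p i * v i) / w := by
      have e : ∀ i, grad g u i y * p i = p i * v i - F y / w * (∑ j, p j * v j) * p i ^ 2 :=
        fun i => by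
          rw [hgu]
          ring
      simp only [e, Finset.sum_sub_distrib, ← Finset.mul_sum]
      rw [hGp]
      have hG' : F y * G = w - 1 := by rw [hW]; ring
      have : F y / w * (∑ j, p j * v j) * G = (w - 1) / w * ∑ j, p j * v j := by
        rw [← hG']
        ring
      rw [this]
      field_simp
      ring
    rw [a1, a2]
    ring
  -- the divergence
  have hcf : ∀ i, cf f i y = p i * (∑ j, A j j) - q i := fun i => by
    rw [hp, hA, hq]
    rfl
  have hFb : ∀ i, G * pd i F y = 2 * b i + 2 * r * p i := fun i => by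
    rw [hb, hr, hp, hG]
    unfold bv
    ring
  have hX := div_X2 (y := y) hf hF hu hw0
  rw [← hww, ← hG] at hX
  have x1 : ∑ i, pd i u y * cf f i y = (∑ j, A j j) * (∑ i, p i * v i) - ∑ i, v i * q i := by
    have e : ∀ i, pd i u y * cf f i y = (∑ j, A j j) * (p i * v i) - v i * q i := fun i => by
      rw [hcf, hv]
      ring
    simp only [e, Finset.sum_sub_distrib, ← Finset.mul_sum]
  have x2 : ∑ i, (G * pd i F y + 2 * F y * Vale.Agent.P366.FG.hf f i y) * cf f i y =
      2 * (r * G * (∑ j, A j j) - (∑ i, q i * b i) - r * (∑ i, p i * q i) +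
        F y * ((∑ j, A j j) * (∑ i, p i * q i) - ∑ i, q i ^ 2)) := by
    have e : ∀ i, (G * pd i F y + 2 * F y * Vale.Agent.P366.FG.hf f i y) * cf f i y =
        2 * (∑ j, A j j) * (p i * b i) + 2 * r * (∑ j, A j j) * p i ^ 2 - 2 * (q i * b i) -
        2 * r * (p i * q i) + 2 * F y * (∑ j, A j j) * (p i * q i) - 2 * F y * q i ^ 2 :=
      fun i => by
        have : Vale.Agent.P366.FG.hf f i y = q i := by rw [hq]
        rw [hcf, hFb, this]
        ring
    simp only [e, Finset.sum_add_distrib, Finset.sum_sub_distrib, ← Finset.mul_sum]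
    rw [hpb, hGp]
    ring
  have x3 : ∑ j, pd j (pd j f) y = ∑ j, A j j := by rw [hA]
  have x4 : ∑ i, ∑ j, pd i (pd j f) y ^ 2 = ∑ i, ∑ j, A i j ^ 2 := by rw [hA]
  rw [x1, x2, x3, x4] at hX
  -- the right side
  have hE : ee f F u y - (∑ i, bv f F i y * (bv f F i y + F y *
      Vale.Agent.P366.FG.hf f i y)) / wsq f F y ^ 2 =
      -((u y ^ 2 * G * (∑ i, b i ^ 2) - u y ^ 2 * (∑ i, q i * b i) -
        u y * w * G * ∑ i, v i * b i) / w ^ 2) := by
    unfold ee
    rw [← hww, ← hG]
    have e1 : ∀ i, bv f F i y * ((1 - u y ^ 2 * G) * bv f F i y +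
        (F y + u y ^ 2) * Vale.Agent.P366.FG.hf f i y + u y * w * G * pd i u y) =
        (1 - u y ^ 2 * G) * b i ^ 2 + (F y + u y ^ 2) * (q i * b i) +
        u y * w * G * (v i * b i) := fun i => by
      rw [hb, hq, hv]
      ring
    have e2 : ∀ i, bv f F i y * (bv f F i y + F y * Vale.Agent.P366.FG.hf f i y) =
        b i ^ 2 + F y * (q i * b i) := fun i => by
      rw [hb, hq]
      ring
    simp only [e1, e2, Finset.sum_add_distrib, ← Finset.mul_sum]
    ring
  rw [hE, hX, hM, hns, ht, htr, ← hww]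
  have := key (w := w) (r := r) (G := G) (F := F y) (U := u y) (A2 := ∑ i, ∑ j, A i j ^ 2)
    (Dl := ∑ j, A j j) (pq := ∑ i, p i * q i) (qq := ∑ i, q i ^ 2) (qb := ∑ i, q i * b i)
    (bb := ∑ i, b i ^ 2) (vp := ∑ i, p i * v i) (vq := ∑ i, v i * q i)
    (vb := ∑ i, v i * b i) hW hw'
  rw [neg_neg, ← this]

/-- **The part of the divergence with `K`.** -/
theorem alg2 (hf : Smooth f) (hF : Smooth F) (hu : Smooth u) (hO : IsOpen O) (hy : y ∈ O)
    (hg : ∀ z ∈ O, ∀ i j, g z i j = lvlMetric f F z i j) (hw : 0 < wsq f F y) :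
    √(wsq f F y) * (∑ i, ∑ j, momT g K y i j * grad g u i y * grad g f j y +
      u y * ∑ i, ∑ j, ∑ k, ∑ l, up g i k y * up g j l y * momT g K y i j * hess g f y k l) +
      ∑ i, pd i (X2 f F u i) y =
    √(wsq f F y) * (∑ i, ∑ j, momT g (rst g K f F u) y i j * grad g u i y * grad g f j y) +
      scal g y / 2 - mu g K y -
      (normSq g (rst g K f F u) y - tr g (rst g K f F u) y ^ 2) / 2 -
      (ee f F u y - (∑ i, bv f F i y * (bv f F i y + F y * Vale.Agent.P366.FG.hf f i y)) /
        wsq f F y ^ 2) := by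
  have hw0 : wsq f F y ≠ 0 := hw.ne'
  have hgy := hg y hy
  have hsq : √(wsq f F y) * √(wsq f F y) = wsq f F y := Real.mul_self_sqrt hw.le
  have h1 := comb (g := g) (K := K) (k := rst g K f F u) (H := hess g f)
    (s := u y * √(wsq f F y)) (y := y) (up_symm_lvl hgy hw0) (up_mul hgy hw0)
    (fun i j => by unfold rst; ring) (fun i => grad g u i y) (fun j => grad g f j y)
    (√(wsq f F y))
  have h2 := quad_part hf hF hu hO hy hg hw
  have h3 : ip g (momT g K) (hess g f) y = ∑ i, ∑ j, ∑ k, ∑ l, up g i k y * up g j l y *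
      momT g K y i j * hess g f y k l := rfl
  rw [← h3]
  have e1 : u y * √(wsq f F y) * √(wsq f F y) = u y * wsq f F y := by rw [mul_assoc, hsq]
  have e2 : (u y * √(wsq f F y)) ^ 2 = u y ^ 2 * wsq f F y := by rw [mul_pow, sq (√_), hsq]
  rw [e1, e2] at h1
  linear_combination h1 + h2

end Vale.Agent.H208G
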