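import Vale.Agent.P366.Kerr.DefsE
import Vale.Agent.P366.H896.M.Glue
import Vale.Agent.P366.H222.N.X0c
import Vale.Agent.P366.H222.N.X0d

/-! A null covector field which is a gradient is geodesic. -/

open MeasureTheory Metric Filter Topology Set
open scoped ContDiff ENNReal

noncomputable section
namespace Vale.Agent.P366.KSL

open Vale.Agent.P366 (pd E flux)
open Vale.Agent.P366.H353.N
open Vale.Agent.P366.Kerr (NullCone Psi pt sp sgn ksL ein FutTimelike DECatL IsKS nul IsGradient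
  IsGraph)

variable {n : ℕ} {C : NullCone n} {l : Fin (n + 1) → E (n + 1) → ℝ} {V : E (n + 1) → ℝ}
  {f lam : E n → ℝ} {D : Stmt.Exterior n} {p : E (n + 1)} {x y : E n}

/-- a closed null covector field is geodesic -/
theorem ksg_of_closed (hK : IsKS l V p)
    (hc : ∀ᶠ q in 𝓝 p, ∀ a b, Stmt.pd b (l a) q = Stmt.pd a (l b) q) : IsKSg l V p := by
  refine ⟨hK, ?_⟩
  obtain ⟨U, hp, hU⟩ := toKNg hK.smV hK.sml hK.null
  filter_upwards [hc, hU.op.mem_nhds hp] with q hq hqU a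
  rw [← hU.null1 hqU a]
  exact Finset.sum_congr rfl fun b _ => by rw [hq a b]; ring

theorem ksg_of_grad (hL : IsGradient C lam l f D) (hy : 0 ≤ D.F y)
    (hK : IsKS l V (pt (f y) y)) : IsKSg l V (pt (f y) y) := by
  refine ksg_of_closed hK ?_
  have h3 : ContDiffAt ℝ ∞ (nul lam) (pt (f y) y) := KSN.nul_contDiffAt (hL.smL y hy)
  have h1 : ∀ᶠ q in 𝓝 (pt (f y) y), ContDiffAt ℝ ((2 : ℕ) : WithTop ℕ∞) (nul lam) q :=
    (h3.of_le (KSN.X1.nat_le_smooth 2)).eventually (by simp)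
  obtain ⟨U, hU, hUo, hpU⟩ := _root_.eventually_nhds_iff.1 h1
  filter_upwards [hUo.mem_nhds hpU, (hL.grad y hy).eventually_nhds] with q hq hgq a b
  have e : ∀ a, l a =ᶠ[𝓝 q] Stmt.pd a (nul lam) := fun a => hgq.mono fun z hz => hz a
  rw [Vale.Agent.P366.H896.pd_congrS (e a) b, Vale.Agent.P366.H896.pd_congrS (e b) a]
  exact Vale.Agent.P366.H896.pd_comm hUo hU hq b a

end Vale.Agent.P366.KSL
end
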