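import Vale.Agent.P366.H208.G.X2
import Vale.Agent.P366.H208.G.Alg

/-! Metrics `g = δ + F df ⊗ df`: linear algebra of `K = k + s H`. -/

noncomputable section
namespace Vale.Agent.H208G
open Vale.Agent.P366.Stmt

variable {n : ℕ} {g K H k : Field n} {s : ℝ} {y : E n}

/-- the inner product of two tensors -/
def ip (g A B : Field n) (x : E n) : ℝ :=
  ∑ i, ∑ j, ∑ a, ∑ l, up g i a x * up g j l x * A x i j * B x a l

lemma tr_lin (h : ∀ i j, K y i j = k y i j + s * H y i j) :
    tr g K y = tr g k y + s * tr g H y := by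
  unfold tr
  simp only [Finset.mul_sum, ← Finset.sum_add_distrib]
  exact Finset.sum_congr rfl fun i _ => Finset.sum_congr rfl fun j _ => by
    rw [h]
    ring

lemma momT_lin (h : ∀ i j, K y i j = k y i j + s * H y i j) (i j : Fin n) :
    momT g K y i j = momT g k y i j + s * momT g H y i j := by
  unfold momT
  rw [tr_lin h, h]
  ring

lemma ip_comm (hu : ∀ i j, up g i j y = up g j i y) (A B : Field n) :
    ip g A B y = ip g B A y := by
  unfold ip
  calc ∑ i, ∑ j, ∑ a, ∑ l, up g i a y * up g j l y * A y i j * B y a l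
      = ∑ i, ∑ a, ∑ j, ∑ l, up g i a y * up g j l y * A y i j * B y a l :=
        Finset.sum_congr rfl fun i _ => Finset.sum_comm
    _ = ∑ a, ∑ i, ∑ j, ∑ l, up g i a y * up g j l y * A y i j * B y a l := Finset.sum_comm
    _ = ∑ a, ∑ i, ∑ l, ∑ j, up g i a y * up g j l y * A y i j * B y a l :=
        Finset.sum_congr rfl fun a _ => Finset.sum_congr rfl fun i _ => Finset.sum_comm
    _ = ∑ a, ∑ l, ∑ i, ∑ j, up g i a y * up g j l y * A y i j * B y a l :=
        Finset.sum_congr rfl fun a _ => Finset.sum_comm
    _ = _ := Finset.sum_congr rfl fun a _ => Finset.sum_congr rfl fun l _ =>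
        Finset.sum_congr rfl fun i _ => Finset.sum_congr rfl fun j _ => by
          rw [hu i a, hu j l]
          ring

lemma ip_lin_left (h : ∀ i j, K y i j = k y i j + s * H y i j) (B : Field n) :
    ip g K B y = ip g k B y + s * ip g H B y := by
  unfold ip
  simp only [Finset.mul_sum, ← Finset.sum_add_distrib]
  exact Finset.sum_congr rfl fun i _ => Finset.sum_congr rfl fun j _ =>
    Finset.sum_congr rfl fun a _ => Finset.sum_congr rfl fun l _ => by
      rw [h]
      ring

lemma ns_lin (hu : ∀ i j, up g i j y = up g j i y)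
    (h : ∀ i j, K y i j = k y i j + s * H y i j) :
    normSq g K y = normSq g k y + 2 * s * ip g k H y + s ^ 2 * normSq g H y := by
  show ip g K K y = ip g k k y + 2 * s * ip g k H y + s ^ 2 * ip g H H y
  rw [ip_lin_left h, ip_comm hu k K, ip_comm hu H K, ip_lin_left h, ip_lin_left h,
    ip_comm hu H k]
  ring

/-- the trace of the metric against `H` -/
lemma ip_g (hu : ∀ i j, ∑ a, up g a i y * g y a j = if i = j then 1 else 0) :
    ip g g H y = tr g H y := by
  unfold ip tr
  calc ∑ i, ∑ j, ∑ a, ∑ l, up g i a y * up g j l y * g y i j * H y a l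
      = ∑ i, ∑ a, ∑ j, ∑ l, up g i a y * up g j l y * g y i j * H y a l :=
        Finset.sum_congr rfl fun i _ => Finset.sum_comm
    _ = ∑ a, ∑ i, ∑ j, ∑ l, up g i a y * up g j l y * g y i j * H y a l := Finset.sum_comm
    _ = ∑ a, ∑ j, ∑ i, ∑ l, up g i a y * up g j l y * g y i j * H y a l :=
        Finset.sum_congr rfl fun a _ => Finset.sum_comm
    _ = ∑ a, ∑ j, ∑ l, (if a = j then 1 else 0) * (up g j l y * H y a l) := by
        refine Finset.sum_congr rfl fun a _ => Finset.sum_congr rfl fun j _ => ?_
        rw [Finset.sum_comm]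
        refine Finset.sum_congr rfl fun l _ => ?_
        rw [← hu a j, Finset.sum_mul]
        exact Finset.sum_congr rfl fun i _ => by ring
    _ = _ := by
        refine Finset.sum_congr rfl fun a _ => ?_
        rw [Finset.sum_eq_single a]
        · exact Finset.sum_congr rfl fun l _ => by simp
        · intro j _ hj
          exact Finset.sum_eq_zero fun l _ => by rw [if_neg (Ne.symm hj), zero_mul]
        · intro h
          exact absurd (Finset.mem_univ a) h

lemma pi_ip (hu : ∀ i j, ∑ a, up g a i y * g y a j = if i = j then 1 else 0) :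
    ip g (momT g K) H y = ip g K H y - tr g K y * tr g H y := by
  have h := ip_lin_left (g := g) (K := momT g K) (k := K) (H := g) (s := -tr g K y) (y := y)
    (fun i j => by unfold momT; ring) H
  rw [h, ip_g hu]
  ring

/-- the general part of the identity -/
lemma comb (hs : ∀ i j, up g i j y = up g j i y)
    (hu : ∀ i j, ∑ a, up g a i y * g y a j = if i = j then 1 else 0)
    (h : ∀ i j, K y i j = k y i j + s * H y i j) (a b : Fin n → ℝ) (w : ℝ) :
    w * (∑ i, ∑ j, momT g K y i j * a i * b j) + s * ip g (momT g K) H y + mu g K y =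
      w * (∑ i, ∑ j, momT g k y i j * a i * b j) + scal g y / 2 -
        (normSq g k y - tr g k y ^ 2) / 2 +
      (s * w * (∑ i, ∑ j, momT g H y i j * a i * b j) +
        s ^ 2 * (normSq g H y - tr g H y ^ 2) / 2) := by
  have e : ∑ i, ∑ j, momT g K y i j * a i * b j = ∑ i, ∑ j, momT g k y i j * a i * b j +
      s * ∑ i, ∑ j, momT g H y i j * a i * b j := by
    simp only [Finset.mul_sum, ← Finset.sum_add_distrib]
    exact Finset.sum_congr rfl fun i _ => Finset.sum_congr rfl fun j _ => by
      rw [momT_lin h]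
      ring
  rw [e, pi_ip hu, ip_lin_left h]
  unfold mu
  rw [ns_lin hs h, tr_lin h]
  have e2 : ip g H H y = normSq g H y := rfl
  rw [e2]
  ring

end Vale.Agent.H208G
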