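import Vale.Agent.P366.H707.G.Field
import Vale.Agent.P366.H45.G2

/-! Metrics `g = δ + F df ⊗ df`: the inverse metric, gradients and Hessians. -/

open MeasureTheory Metric Filter Topology Set
open scoped ContDiff ENNReal

noncomputable section
namespace Vale.Agent.P366.FG
open Vale.Agent.P366.Stmt
open Vale.Agent.H45G (hp smooth_pd sym2)
open Vale.Agent.P366.T2 (HP)

variable {n : ℕ} {g : Stmt.Field n} {f F u : Stmt.E n → ℝ} {O : Set (Stmt.E n)} {y : Stmt.E n}

/-- the inverse metric -/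
lemma up_lvl (hg : ∀ i j, g y i j = lvlMetric f F y i j) (hw : wsq f F y ≠ 0) (i j : Fin n) :
    Stmt.up g i j y = (if i = j then 1 else 0) - F y / wsq f F y * Stmt.pd i f y * Stmt.pd j f y := by
  set a : Fin n → ℝ := fun i => Stmt.pd i f y with ha
  set φ : ℝ := F y / wsq f F y with hφ
  have hG : ∑ k, a k * a k = ∑ k, Stmt.pd k f y ^ 2 := Finset.sum_congr rfl fun k _ => by rw [ha]; ring
  have hm : Stmt.mat g y * (Matrix.of fun i j => (if i = j then 1 else 0) -
      φ * a i * a j) = 1 := by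
    ext i j
    rw [Matrix.mul_apply, Matrix.one_apply]
    have e1 : ∀ k, Stmt.mat g y i k * (Matrix.of fun i j => (if i = j then 1 else 0) -
        φ * a i * a j) k j =
        (if k = j then (if i = k then 1 else 0) + F y * a i * a k else 0) -
        φ * a j * (if i = k then a k else 0) -
        φ * F y * a i * a j * (a k * a k) := by
      intro k
      rw [Matrix.of_apply]
      show g y i k * _ = _
      rw [hg i k]
      unfold lvlMetric
      simp only [ha]
      split_ifs <;> ring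
    simp only [e1, Finset.sum_sub_distrib, ← Finset.mul_sum]
    simp only [Finset.sum_ite_eq', Finset.sum_ite_eq, Finset.mem_univ, if_true]
    rw [hG]
    have h1 : φ * wsq f F y = F y := by rw [hφ]; field_simp
    have h2 : F y * ∑ k, Stmt.pd k f y ^ 2 = wsq f F y - 1 := by unfold wsq; ring
    have h3 : φ * F y * a i * a j * ∑ k, Stmt.pd k f y ^ 2 =
        a i * a j * (φ * wsq f F y) - φ * a i * a j := by
      rw [show φ * F y * a i * a j * ∑ k, Stmt.pd k f y ^ 2 =
        φ * a i * a j * (F y * ∑ k, Stmt.pd k f y ^ 2) by ring, h2]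
      ring
    rw [h3, h1]
    ring
  have h2 : (Stmt.mat g y)⁻¹ = Matrix.of fun i j => (if i = j then 1 else 0) -
      φ * a i * a j := Matrix.inv_eq_right_inv hm
  unfold Stmt.up
  rw [h2, Matrix.of_apply]

lemma up_symm_lvl (hg : ∀ i j, g y i j = lvlMetric f F y i j) (hw : wsq f F y ≠ 0)
    (i j : Fin n) : Stmt.up g i j y = Stmt.up g j i y := by
  rw [up_lvl hg hw, up_lvl hg hw]
  simp only [eq_comm (a := i)]
  ring

/-- the gradient -/
lemma grad_lvl (hg : ∀ i j, g y i j = lvlMetric f F y i j) (hw : wsq f F y ≠ 0) (φ : Stmt.E n → ℝ)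
    (i : Fin n) : grad g φ i y = Stmt.pd i φ y - F y / wsq f F y * (∑ j, Stmt.pd j f y * Stmt.pd j φ y) *
      Stmt.pd i f y := by
  unfold grad
  have e : ∀ j, Stmt.up g i j y * Stmt.pd j φ y = (if i = j then Stmt.pd j φ y else 0) -
      F y / wsq f F y * Stmt.pd i f y * (Stmt.pd j f y * Stmt.pd j φ y) := by
    intro j
    rw [up_lvl hg hw]
    split_ifs <;> ring
  simp only [e, Finset.sum_sub_distrib, ← Finset.mul_sum, Finset.sum_ite_eq, Finset.mem_univ,
    if_true]
  ring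

lemma grad_f (hg : ∀ i j, g y i j = lvlMetric f F y i j) (hw : wsq f F y ≠ 0)
    (i : Fin n) : grad g f i y = Stmt.pd i f y / wsq f F y := by
  rw [grad_lvl hg hw]
  have h1 : ∑ j, Stmt.pd j f y * Stmt.pd j f y = ∑ j, Stmt.pd j f y ^ 2 :=
    Finset.sum_congr rfl fun j _ => by ring
  have h2 : F y * ∑ k, Stmt.pd k f y ^ 2 = wsq f F y - 1 := by unfold wsq; ring
  rw [h1]
  field_simp
  rw [h2]
  ring

/-- the derivatives of the metric -/
lemma pd_lvl (hf : Stmt.Smooth f) (hF : Stmt.Smooth F) (hO : IsOpen O) (hy : y ∈ O)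
    (hg : ∀ z ∈ O, ∀ i j, g z i j = lvlMetric f F z i j) (k i j : Fin n) :
    Stmt.pd k (fun z => g z i j) y = Stmt.pd k F y * Stmt.pd i f y * Stmt.pd j f y +
      F y * (Stmt.pd k (Stmt.pd i f) y * Stmt.pd j f y + Stmt.pd i f y * Stmt.pd k (Stmt.pd j f) y) := by
  have h1 : HP k (fun z => (if i = j then 1 else 0) + F z * (Stmt.pd i f z * Stmt.pd j f z))
      (0 + (Stmt.pd k F y * (Stmt.pd i f y * Stmt.pd j f y) +
        F y * (Stmt.pd k (Stmt.pd i f) y * Stmt.pd j f y + Stmt.pd i f y * Stmt.pd k (Stmt.pd j f) y))) y :=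
    (HP.const k _ y).add ((hp hF k y).mul ((hp (smooth_pd hf i) k y).mul
      (hp (smooth_pd hf j) k y)))
  have h2 : HP k (fun z => g z i j) _ y := h1.congr (by
    filter_upwards [hO.mem_nhds hy] with x hx
    rw [hg x hx i j]
    unfold lvlMetric
    ring)
  rw [h2.pd]
  ring

/-- the Hessian -/
lemma hess_lvl (hf : Stmt.Smooth f) (hF : Stmt.Smooth F) (hO : IsOpen O) (hy : y ∈ O)
    (hg : ∀ z ∈ O, ∀ i j, g z i j = lvlMetric f F z i j) (hw : wsq f F y ≠ 0) (i j : Fin n) :
    Stmt.hess g f y i j = (Stmt.pd i (Stmt.pd j f) y - bv f F i y * Stmt.pd j f y - Stmt.pd i f y * bv f F j y -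
      (∑ k, Stmt.pd k f y * Stmt.pd k F y) / 2 * Stmt.pd i f y * Stmt.pd j f y) / wsq f F y := by
  obtain ⟨G, hG⟩ : ∃ G, G = ∑ k, Stmt.pd k f y ^ 2 := ⟨_, rfl⟩
  obtain ⟨r, hr⟩ : ∃ r, r = ∑ k, Stmt.pd k f y * Stmt.pd k F y := ⟨_, rfl⟩
  have hW : wsq f F y = 1 + F y * G := by rw [hG]; rfl
  have hup : ∀ l, ∑ k, Stmt.up g k l y * Stmt.pd k f y = Stmt.pd l f y / wsq f F y := by
    intro l
    rw [← grad_f (hg y hy) hw l]
    unfold grad
    exact Finset.sum_congr rfl fun k _ => by rw [up_symm_lvl (hg y hy) hw k l]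
  have h1 : ∑ k, Stmt.chr g k i j y * Stmt.pd k f y = (∑ l, Stmt.pd l f y / wsq f F y *
      (Stmt.pd i (fun z => g z j l) y + Stmt.pd j (fun z => g z i l) y - Stmt.pd l (fun z => g z i j) y)) / 2 := by
    unfold Stmt.chr
    have e : ∀ k, (∑ l, Stmt.up g k l y * (Stmt.pd i (fun z => g z j l) y + Stmt.pd j (fun z => g z i l) y -
        Stmt.pd l (fun z => g z i j) y)) / 2 * Stmt.pd k f y = ∑ l, (Stmt.up g k l y * Stmt.pd k f y) *
        ((Stmt.pd i (fun z => g z j l) y + Stmt.pd j (fun z => g z i l) y -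
        Stmt.pd l (fun z => g z i j) y) / 2) := by
      intro k
      rw [Finset.sum_div, Finset.sum_mul]
      exact Finset.sum_congr rfl fun l _ => by ring
    simp only [e]
    rw [Finset.sum_comm, Finset.sum_div]
    refine Finset.sum_congr rfl fun l _ => ?_
    rw [← Finset.sum_mul, hup l]
    ring
  have h2 : ∀ l, Stmt.pd l f y / wsq f F y *
      (Stmt.pd i (fun z => g z j l) y + Stmt.pd j (fun z => g z i l) y - Stmt.pd l (fun z => g z i j) y) =
      (Stmt.pd i F y * Stmt.pd j f y + Stmt.pd j F y * Stmt.pd i f y + 2 * F y * Stmt.pd i (Stmt.pd j f) y) / wsq f F y *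
        Stmt.pd l f y ^ 2 - Stmt.pd i f y * Stmt.pd j f y / wsq f F y * (Stmt.pd l f y * Stmt.pd l F y) := by
    intro l
    rw [pd_lvl hf hF hO hy hg, pd_lvl hf hF hO hy hg, pd_lvl hf hF hO hy hg,
      congrFun (sym2 hf l i) y, congrFun (sym2 hf l j) y, congrFun (sym2 hf j i) y]
    ring
  show Stmt.pd i (Stmt.pd j f) y - ∑ k, Stmt.chr g k i j y * Stmt.pd k f y = _
  rw [h1]
  simp only [h2, Finset.sum_sub_distrib, ← Finset.mul_sum]
  unfold bv
  rw [← hG, ← hr]
  have hw' : 1 + F y * G ≠ 0 := by rw [← hW]; exact hw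
  rw [hW]
  field_simp
  ring

end Vale.Agent.P366.FG
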