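import Vale.Agent.P366.H896.M.Glue

/-! The Einstein tensor and the flux fields for a null covector field without the geodesic
condition. -/

open MeasureTheory Metric Filter Topology Set
open scoped ContDiff ENNReal

noncomputable section
namespace Vale.Agent.P366.KSL

open Vale.Agent.P366 (pd E flux)
open Vale.Agent.P366.H353.N
open Vale.Agent.P366.Kerr (NullCone Psi pt sp sgn ksL ein FutTimelike DECatL IsKS)
open Vale.Agent.P366.KSN (Y dts sg)

variable {n : ℕ} {C : NullCone n} {l : Fin (n + 1) → E (n + 1) → ℝ} {V : E (n + 1) → ℝ}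
  {f : E n → ℝ} {D : Stmt.Exterior n} {p : E (n + 1)} {x y : E n}

theorem n_ein_symm (hK : IsKS l V p) (a b : Fin (n + 1)) :
    ein (ksL l V) a b p = ein (ksL l V) b a p := r_ein_symm hK.smV hK.sml hK.null a b

theorem n_ekk (hK : IsKS l V p) : ekk l V p = -(V p * ∑ a, sgn a * acc l a p ^ 2) :=
  r_ekk hK.smV hK.sml hK.null

theorem n_l_acc (hK : IsKS l V p) : ∑ a, sgn a * (l a p * acc l a p) = 0 :=
  r_l_acc hK.smV hK.sml hK.null

/-- the condition holds at the points of the hypersurface near `y`, or `V = 0` at the point -/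
theorem n_div_Z (hf : ContDiffAt ℝ ∞ f y) (hK : IsKS l V (pt (f y) y))
    (hg : V (pt (f y) y) = 0 ∨
      ∀ᶠ z in 𝓝 y, ∃ κ : ℝ, ∀ a, acc l a (pt (f z) z) = κ * l a (pt (f z) z))
    (b : Fin (n + 1)) : ∑ i, pd i (Zf l V f b i) y =
      Gm l V 0 b (pt (f y) y) - ∑ j : Fin n, pd j f y * Gm l V j.succ b (pt (f y) y) :=
  r_div_Z hf hK.smV hK.sml hK.null hK.fut hg b

theorem n_Z_bdr (smf : ContDiffAt ℝ ∞ f (Y C.H x (C.U x)))
    (bdr : ∀ x, x ≠ 0 → ‖x‖ = C.U x → f (Psi C.H x) = - C.U x)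
    (hK : IsKS l V (pt (- C.U x) (Y C.H x (C.U x))))
    (hg : V (pt (- C.U x) (Y C.H x (C.U x))) = 0 ∨ ∃ κ : ℝ, ∀ a,
      acc l a (pt (- C.U x) (Y C.H x (C.U x))) = κ * l a (pt (- C.U x) (Y C.H x (C.U x))))
    (nor : ∀ x, x ≠ 0 → ‖x‖ = C.U x → ∀ i : Fin n,
      l i.succ (pt (- C.U x) (Psi C.H x)) = l 0 (pt (- C.U x) (Psi C.H x)) * (x i / ‖x‖))
    (hx : ‖x‖ = 1) (b : Fin (n + 1)) :
    dts C.H (C.U x) x * ∑ i, Zf l V f b i (Y C.H x (C.U x)) * (x i - C.toDat.b x i) =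
      -(1 / 2 * (V (pt (- C.U x) (Y C.H x (C.U x))) * l 0 (pt (- C.U x) (Y C.H x (C.U x))) ^ 2 *
        sg C.H (C.U x) x)) * lx x b :=
  r_Z_bdr smf bdr hK.smV hK.sml hK.null hK.fut hg nor hx b

end Vale.Agent.P366.KSL
end
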