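import Vale.Agent.P366.H45.G1

/-! The bodies are not empty. -/

open MeasureTheory Metric Filter Topology Set
open scoped ContDiff

noncomputable section
namespace Vale.Agent.H208G
open Vale.Agent.P366.Stmt

variable {n : ℕ}

/-- The complement of an exterior domain is not empty. -/
theorem neg_exists (D : Exterior n) : ∃ z, D.F z < 0 := by
  by_contra h
  push Not at h
  obtain ⟨x, hx⟩ := D.bdry
  obtain ⟨i, hi⟩ := D.dom.2.1 x hx
  apply hi
  have h1 : IsLocalMin D.F x := Filter.Eventually.of_forall fun z => by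
    rw [hx]
    exact h z
  have h2 := h1.fderiv_eq_zero
  rw [Vale.Agent.C92.pd_fderiv' D.dom.1]
  simp [h2]

/-- A support function of the form `r + ⟨c, x⟩` which defines a nonempty set has `0 < r`. -/
theorem r_pos (hn : 0 < n) {h : E n → ℝ} {r : ℝ} {c z : E n}
    (hr : ∀ x : E n, len x = 1 → h x = r + ∑ i, c i * x i)
    (hz : ∀ x : E n, len x = 1 → ∑ i, x i * z i < h x) : 0 < r := by
  obtain ⟨x, hx⟩ : ∃ x : E n, len x = 1 := by
    refine ⟨EuclideanSpace.single ⟨0, hn⟩ 1, ?_⟩
    unfold len
    simp
  have hx' : len (-x) = 1 := by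
    unfold len at *
    rw [norm_neg, hx]
  have h1 := hz x hx
  have h2 := hz (-x) hx'
  rw [hr x hx] at h1
  rw [hr _ hx'] at h2
  simp only [PiLp.neg_apply, neg_mul, mul_neg, Finset.sum_neg_distrib] at h2
  linarith

/-- the set with the support function `r + ⟨c, x⟩` is a ball -/
theorem ball_iff' {h : E n → ℝ} {r : ℝ} {c : E n} (h0 : 0 < r)
    (hr : ∀ x : E n, len x = 1 → h x = r + ∑ i, c i * x i) (z : E n) :
    (∀ x : E n, len x = 1 → ∑ i, x i * z i < h x) ↔ len (z - c) < r := by
  have e : ∀ x : E n, ∑ i, x i * z i - ∑ i, c i * x i = inner ℝ x (z - c) := by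
    intro x
    rw [PiLp.inner_apply, ← Finset.sum_sub_distrib]
    refine Finset.sum_congr rfl fun i _ => ?_
    simp only [PiLp.sub_apply, RCLike.inner_apply, conj_trivial]
    ring
  constructor
  · intro H
    rcases eq_or_ne (z - c) 0 with h1 | h1
    · unfold len
      rw [h1, norm_zero]
      exact h0
    · have h2 : len (‖z - c‖⁻¹ • (z - c)) = 1 := by
        unfold len
        rw [norm_smul, norm_inv, norm_norm, inv_mul_cancel₀ (norm_ne_zero_iff.2 h1)]
      have h3 := H _ h2
      rw [hr _ h2] at h3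
      have h4 := e (‖z - c‖⁻¹ • (z - c))
      rw [real_inner_smul_left, real_inner_self_eq_norm_sq] at h4
      have h5 : ‖z - c‖⁻¹ * ‖z - c‖ ^ 2 = ‖z - c‖ := by
        have := norm_ne_zero_iff.2 h1
        field_simp
      rw [h5] at h4
      unfold len
      linarith
  · intro H x hx
    have h1 := e x
    have h2 := real_inner_le_norm x (z - c)
    unfold len at hx H
    rw [hx, one_mul] at h2
    rw [hr x hx]
    linarith

end Vale.Agent.H208G
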