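import Vale.Agent.P366.H896.L.X1a

/-! Metrics `η + V l ⊗ l` with `l` null, not necessarily geodesic: the Ricci tensor. Part 1. -/

open MeasureTheory Metric Filter Topology Set
open scoped ContDiff

noncomputable section
namespace Vale.Agent.P366.H896
open Vale.Agent.P366.Stmt Vale.Agent.P366.T2

variable {m : ℕ}

/-- `g = η + V l ⊗ l` with `l` null. -/
structure KLn (e : Fin m → ℝ) (g : Field m) (l : Fin m → E m → ℝ) (V : E m → ℝ)
    (U : Set (E m)) : Prop extends KL0 e g l V U where
  null : ∀ x ∈ U, ∑ a, e a * (l a x * l a x) = 0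

/-- the acceleration `k^b ∂_b l_a` -/
def la (e : Fin m → ℝ) (l : Fin m → E m → ℝ) (a : Fin m) (x : E m) : ℝ := lk e l (l a) x

/-- the derivative of `h_ab` along `k` -/
def dh (e : Fin m → ℝ) (l : Fin m → E m → ℝ) (V : E m → ℝ) (a b : Fin m) (x : E m) : ℝ :=
  lk e l (hl l V a b) x

/-- `∂_d h^d_b` -/
def jj (e : Fin m → ℝ) (l : Fin m → E m → ℝ) (V : E m → ℝ) (b : Fin m) (x : E m) : ℝ :=
  lph e l V x * l b x + V x * la e l b x

/-- `k(V l_a)` -/
def mu (e : Fin m → ℝ) (l : Fin m → E m → ℝ) (V : E m → ℝ) (a : Fin m) (x : E m) : ℝ :=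
  lk e l V x * l a x + V x * la e l a x

/-- `a^c ∂_c (V l_b)` -/
def aA (e : Fin m → ℝ) (l : Fin m → E m → ℝ) (V : E m → ℝ) (b : Fin m) (x : E m) : ℝ :=
  (∑ c, e c * (la e l c x * pd c V x)) * l b x + V x * ∑ c, e c * (la e l c x * pd c (l b) x)

/-- `|a|²` -/
def aa (e : Fin m → ℝ) (l : Fin m → E m → ℝ) (x : E m) : ℝ :=
  ∑ c, e c * (la e l c x * la e l c x)

namespace KLn

variable {e : Fin m → ℝ} {g : Field m} {l : Fin m → E m → ℝ} {V : E m → ℝ} {U : Set (E m)}
  (h : KLn e g l V U)
include h

lemma null1 {x : E m} (hx : x ∈ U) (b : Fin m) :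
    ∑ a, e a * (l a x * pd b (l a) x) = 0 := by
  have h1 : HP b (fun y => ∑ a, e a * (l a y * l a y))
      (∑ a, e a * (pd b (l a) x * l a x + l a x * pd b (l a) x)) x :=
    HP.sum _ fun a _ => (((h.sl0 a).hp hx b).mul ((h.sl0 a).hp hx b)).const_mul (e a)
  have h2 : HP b (fun y => ∑ a, e a * (l a y * l a y)) 0 x :=
    hp_congrU h.op hx h.null (HP.const b 0 x)
  have h3 := h1.pd.symm.trans h2.pd
  have h4 : ∑ a, e a * (pd b (l a) x * l a x + l a x * pd b (l a) x) =
      2 * ∑ a, e a * (l a x * pd b (l a) x) := by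
    rw [Finset.mul_sum]; exact Finset.sum_congr rfl fun a _ => by ring
  linarith

lemma null2 {x : E m} (hx : x ∈ U) (b c : Fin m) :
    ∑ a, e a * (l a x * pd b (pd c (l a)) x) =
      - ∑ a, e a * (pd b (l a) x * pd c (l a) x) := by
  have h1 : HP b (fun y => ∑ a, e a * (l a y * pd c (l a) y))
      (∑ a, e a * (pd b (l a) x * pd c (l a) x + l a x * pd b (pd c (l a)) x)) x :=
    HP.sum _ fun a _ => (((h.sl0 a).hp hx b).mul ((h.sl1 c a).hp hx b)).const_mul (e a)
  have h2 : HP b (fun y => ∑ a, e a * (l a y * pd c (l a) y)) 0 x :=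
    hp_congrU h.op hx (fun y hy => h.null1 hy c) (HP.const b 0 x)
  have h3 := h1.pd.symm.trans h2.pd
  simp only [mul_add, Finset.sum_add_distrib] at h3
  linarith

lemma sla (a : Fin m) : CR 4 U (la e l a) := by
  have h1 : CR 4 U (fun x => ∑ b, e b * (l b x * pd b (l a) x)) :=
    CR.sum _ fun b => (CR.const _).mul (((h.sl b).le (by norm_num)).mul (h.sl1' b a))
  exact h1

lemma sla0 (a : Fin m) : CU U (la e l a) := (h.sla a).le (by norm_num)

lemma sk0 : CU U (lk e l V) := h.sk'.le (by norm_num)

lemma sth0 : CU U (lth e l) := h.sth'.le (by norm_num)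

lemma sph0 : CU U (lph e l V) := h.sph'.le (by norm_num)

lemma l_la {x : E m} (hx : x ∈ U) : ∑ a, e a * (l a x * la e l a x) = 0 := by
  unfold la lk
  have e1 : ∀ a, e a * (l a x * ∑ b, e b * (l b x * pd b (l a) x)) =
      ∑ b, e b * (l b x * (e a * (l a x * pd b (l a) x))) := by
    intro a; rw [Finset.mul_sum, Finset.mul_sum]
    exact Finset.sum_congr rfl fun b _ => by ring
  simp only [e1]
  rw [Finset.sum_comm]
  simp only [← Finset.mul_sum, h.null1 hx, mul_zero, Finset.sum_const_zero]

lemma dh_eq {x : E m} (hx : x ∈ U) (a b : Fin m) : dh e l V a b x =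
    lk e l V x * (l a x * l b x) + V x * (la e l a x * l b x + l a x * la e l b x) := by
  unfold dh la lk
  have e1 : ∀ d, e d * (l d x * pd d (hl l V a b) x) =
      (e d * (l d x * pd d V x)) * (l a x * l b x) +
      (e d * (l d x * pd d (l a) x)) * (V x * l b x) +
      (e d * (l d x * pd d (l b) x)) * (V x * l a x) := by
    intro d; rw [(h.hp_hl hx d a b).pd]; ring
  simp only [e1, Finset.sum_add_distrib, ← Finset.sum_mul]
  ring

omit h in
lemma dh_symm (a b : Fin m) : dh e l V a b = dh e l V b a := by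
  unfold dh; rw [hl_symm l V a b]

lemma sdh (a b : Fin m) : CU U (dh e l V a b) := by
  have h1 : CR 4 U (fun x => ∑ d, e d * (l d x * pd d (hl l V a b) x)) :=
    CR.sum _ fun d => (CR.const _).mul (((h.sl d).le (by norm_num)).mul
      ((h.shl a b).pd h.op d : CR 4 U _))
  exact h1.le (by norm_num)

lemma l_dh {x : E m} (hx : x ∈ U) (b : Fin m) : ∑ d, e d * (l d x * dh e l V b d x) = 0 := by
  have e1 : ∀ d, e d * (l d x * dh e l V b d x) =
      (lk e l V x * l b x + V x * la e l b x) * (e d * (l d x * l d x)) +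
      (V x * l b x) * (e d * (l d x * la e l d x)) := by
    intro d; rw [h.dh_eq hx]; ring
  simp only [e1, Finset.sum_add_distrib, ← Finset.mul_sum, h.null x hx, h.l_la hx]
  ring

theorem chr_eq {x : E m} (hx : x ∈ U) (c a b : Fin m) :
    chr g c a b x = e c * (pd a (hl l V b c) x + pd b (hl l V a c) x - pd c (hl l V a b) x) / 2 +
      V x * (e c * l c x) * dh e l V a b x / 2 :=
  h.toKL0.chr_eq0 hx (h.null x hx) (h.null1 hx) c a b

lemma tr0 {x : E m} (hx : x ∈ U) (b : Fin m) : ∑ c, e c * pd b (hl l V c c) x = 0 := by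
  have e1 : ∀ c, e c * pd b (hl l V c c) x = pd b V x * (e c * (l c x * l c x)) +
      (2 * V x) * (e c * (l c x * pd b (l c) x)) := by
    intro c; rw [(h.hp_hl hx b c c).pd]; ring
  simp only [e1, Finset.sum_add_distrib, ← Finset.mul_sum, h.null x hx, h.null1 hx]
  ring

lemma chr_tr {x : E m} (hx : x ∈ U) (a : Fin m) : ∑ c, chr g c a c x = 0 := by
  have e1 : ∀ c, chr g c a c x = e c * pd a (hl l V c c) x / 2 +
      (V x / 2) * (e c * (l c x * dh e l V a c x)) := by
    intro c; rw [h.chr_eq hx, hl_symm l V a c]; ring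
  simp only [e1, Finset.sum_add_distrib, ← Finset.sum_div, ← Finset.mul_sum, h.tr0 hx,
    h.l_dh hx]
  ring

lemma chr_symm {x : E m} (hx : x ∈ U) (c a b : Fin m) : chr g c a b x = chr g c b a x := by
  rw [h.chr_eq hx, h.chr_eq hx, hl_symm l V a b, dh_symm a b]; ring

lemma chr_tr' {x : E m} (hx : x ∈ U) (a : Fin m) : ∑ c, chr g c c a x = 0 := by
  rw [← h.chr_tr hx a]
  exact Finset.sum_congr rfl fun c _ => h.chr_symm hx c c a

lemma hp_chr {x : E m} (hx : x ∈ U) (d c a b : Fin m) : HP d (chr g c a b)
    (e c * (pd d (pd a (hl l V b c)) x + pd d (pd b (hl l V a c)) x -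
        pd d (pd c (hl l V a b)) x) * (1 / 2) +
      ((pd d V x * (e c * l c x) + V x * (e c * pd d (l c) x)) * dh e l V a b x +
        V x * (e c * l c x) * pd d (dh e l V a b) x) * (1 / 2)) x := by
  have h1 : HP d (fun y => e c * (pd a (hl l V b c) y + pd b (hl l V a c) y -
        pd c (hl l V a b) y) * (1 / 2) +
      V y * (e c * l c y) * dh e l V a b y * (1 / 2)) _ x :=
    ((((((h.shl1 a b c).hp hx d).add ((h.shl1 b a c).hp hx d)).sub
      ((h.shl1 c a b).hp hx d)).const_mul (e c)).mul (HP.const d (1 / 2) x)).add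
    ((((h.sV0.hp hx d).mul (((h.sl0 c).hp hx d).const_mul (e c))).mul
      ((h.sdh a b).hp hx d)).mul (HP.const d (1 / 2) x))
  have h2 := hp_congrU h.op hx (fun y hy => by
    rw [h.chr_eq hy]; ring : ∀ y ∈ U, chr g c a b y = e c * (pd a (hl l V b c) y +
      pd b (hl l V a c) y - pd c (hl l V a b) y) * (1 / 2) +
      V y * (e c * l c y) * dh e l V a b y * (1 / 2)) h1
  convert h2 using 1
  ring

/-- The divergence of the Christoffel symbols. -/
lemma div_chr {x : E m} (hx : x ∈ U) (a b : Fin m) :
    ∑ c, pd c (chr g c a b) x = Rl e l V a b x +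
      (lk e l V x * dh e l V a b x + V x * lth e l x * dh e l V a b x +
        V x * lk e l (dh e l V a b) x) / 2 := by
  have e1 : ∀ c, pd c (chr g c a b) x = (e c * pd c (pd b (hl l V c a)) x +
        e c * pd c (pd a (hl l V c b)) x - e c * pd c (pd c (hl l V a b)) x) / 2 +
      (e c * (l c x * pd c V x)) * (dh e l V a b x / 2) +
      (e c * pd c (l c) x) * (V x * dh e l V a b x / 2) +
      (e c * (l c x * pd c (dh e l V a b) x)) * (V x / 2) := by
    intro c
    rw [(h.hp_chr hx c c a b).pd, hl_symm l V b c, hl_symm l V a c]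
    ring
  simp only [e1, Finset.sum_add_distrib, Finset.sum_sub_distrib, ← Finset.sum_mul,
    ← Finset.sum_div]
  have e2 : ∑ c, e c * (l c x * pd c (dh e l V a b) x) = lk e l (dh e l V a b) x := rfl
  have e3 : ∑ c, e c * (l c x * pd c V x) = lk e l V x := rfl
  have e4 : ∑ c, e c * pd c (l c) x = lth e l x := rfl
  rw [e2, e3, e4]
  unfold Rl
  ring

/-- The quadratic term of the Ricci tensor. -/
lemma quad {x : E m} (hx : x ∈ U) (a b : Fin m) :
    ∑ c, ∑ d, chr g c b d x * chr g d a c x =
      (mu e l V a x * mu e l V b x + V x * (l a x * aA e l V b x + l b x * aA e l V a x) +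
        V x ^ 3 * aa e l x * (l a x * l b x) -
        V x ^ 2 * (lS e l x - lT e l x) * (l a x * l b x)) / 2 := by
  set u : Fin m → Fin m → ℝ := fun b d => pd b V x * l d x + pd d V x * l b x +
    V x * pd b (l d) x + V x * pd d (l b) x + V x * dh e l V b d x with hu
  set v : Fin m → Fin m → ℝ := fun b c => V x * pd b (l c) x - V x * pd c (l b) x -
    pd c V x * l b x with hv
  set om : Fin m → Fin m → ℝ := fun d c => pd d (l c) x - pd c (l d) x with hom
  have hc : ∀ c b d, chr g c b d x =
      e c * (l c x * u b d + v b c * l d x + V x * l b x * om d c) / 2 := by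
    intro c b d
    rw [h.chr_eq hx, (h.hp_hl hx b d c).pd, (h.hp_hl hx d b c).pd, (h.hp_hl hx c b d).pd]
    simp only [hu, hv, hom]
    ring
  have hla : ∀ b, ∑ d, e d * (l d x * pd d (l b) x) = la e l b x := fun b => rfl
  have hlV : ∑ d, e d * (l d x * pd d V x) = lk e l V x := rfl
  have lu : ∀ b, ∑ d, e d * (l d x * u b d) = mu e l V b x := by
    intro b
    have e1 : ∀ d, e d * (l d x * u b d) = pd b V x *
        (e d * (l d x * l d x)) + (e d * (l d x * pd d V x)) * l b x +
        V x * (e d * (l d x * pd b (l d) x)) + V x * (e d * (l d x * pd d (l b) x)) +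
        V x * (e d * (l d x * dh e l V b d x)) := by
      intro d; simp only [hu]; ring
    simp only [e1, Finset.sum_add_distrib, ← Finset.sum_mul, ← Finset.mul_sum, hla, hlV,
      h.null x hx, h.null1 hx, h.l_dh hx]
    unfold mu; ring
  have lv : ∀ b, ∑ d, e d * (l d x * v b d) = - mu e l V b x := by
    intro b
    have e1 : ∀ d, e d * (l d x * v b d) =
        V x * (e d * (l d x * pd b (l d) x)) - V x * (e d * (l d x * pd d (l b) x)) -
        (e d * (l d x * pd d V x)) * l b x := by
      intro d; simp only [hv]; ring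
    simp only [e1, Finset.sum_sub_distrib, ← Finset.sum_mul, ← Finset.mul_sum, hla, hlV,
      h.null1 hx]
    unfold mu; ring
  have lom : ∀ c, ∑ d, e d * (l d x * om d c) = la e l c x := by
    intro c
    have e1 : ∀ d, e d * (l d x * om d c) =
        e d * (l d x * pd d (l c) x) - e d * (l d x * pd c (l d) x) := by
      intro d; simp only [hom]; ring
    simp only [e1, Finset.sum_sub_distrib, hla, h.null1 hx]
    ring
  have omo : ∀ c d, om c d = - om d c := by intro c d; simp only [hom]; ring
  have hoo : ∑ c, ∑ d, e c * (e d * (om c d * om d c)) = - (2 * (lS e l x - lT e l x)) := by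
    have e1 : ∀ c d, e c * (e d * (om c d * om d c)) =
        e c * (e d * (pd c (l d) x * pd d (l c) x)) +
        e d * (e c * (pd d (l c) x * pd c (l d) x)) -
        e c * (e d * (pd c (l d) x * pd c (l d) x)) -
        e d * (e c * (pd d (l c) x * pd d (l c) x)) := by
      intro c d; simp only [hom]; ring
    have e2 : ∑ c, ∑ d, e d * (e c * (pd d (l c) x * pd c (l d) x)) = lT e l x := by
      rw [Finset.sum_comm]; unfold lT
      simp only [← Finset.mul_sum]
    have e3 : ∑ c, ∑ d, e d * (e c * (pd d (l c) x * pd d (l c) x)) = lS e l x := by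
      rw [Finset.sum_comm]; unfold lS
      simp only [← Finset.mul_sum]
    have e4 : ∑ c, ∑ d, e c * (e d * (pd c (l d) x * pd d (l c) x)) = lT e l x := by
      unfold lT
      simp only [← Finset.mul_sum]
    have e5 : ∑ c, ∑ d, e c * (e d * (pd c (l d) x * pd c (l d) x)) = lS e l x := by
      unfold lS
      simp only [← Finset.mul_sum]
    simp only [e1, Finset.sum_add_distrib, Finset.sum_sub_distrib, e2, e3, e4, e5]
    ring
  -- the contraction with the acceleration
  have luv : ∀ b, ∑ d, e d * (u b d * la e l d x) - ∑ d, e d * (v b d * la e l d x) =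
      2 * aA e l V b x + V x * (V x * aa e l x * l b x) := by
    intro b
    rw [← Finset.sum_sub_distrib]
    have e1 : ∀ d, e d * (u b d * la e l d x) - e d * (v b d * la e l d x) =
        pd b V x * (e d * (l d x * la e l d x)) +
        (e d * (la e l d x * pd d V x)) * (2 * l b x) +
        2 * V x * (e d * (la e l d x * pd d (l b) x)) +
        (V x * (lk e l V x * l b x + V x * la e l b x)) * (e d * (l d x * la e l d x)) +
        (V x * (V x * l b x)) * (e d * (la e l d x * la e l d x)) := by
      intro d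
      simp only [hu, hv]
      rw [h.dh_eq hx]; ring
    simp only [e1, Finset.sum_add_distrib, ← Finset.sum_mul, ← Finset.mul_sum, h.l_la hx]
    unfold aA aa; ring
  have h1 : ∀ c d, chr g c b d x * chr g d a c x =
      (e c * ((l c x * u a c) * (e d * (l d x * u b d))) +
        e c * ((v b c * u a c) * (e d * (l d x * l d x))) +
        e c * ((l c x * v b c) * (e d * (l d x * v a d))) -
        e c * ((V x * l a x * v b c) * (e d * (l d x * om d c))) +
        e c * ((V x * l b x * u a c) * (e d * (l d x * om d c))) +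
        V x ^ 2 * (l a x * l b x) * (e c * (e d * (om c d * om d c)))) / 4 +
      (e d * ((u b d * v a d) * (e c * (l c x * l c x))) +
        e d * ((u b d * (V x * l a x)) * (e c * (l c x * om c d))) -
        e d * ((v a d * (V x * l b x)) * (e c * (l c x * om c d)))) / 4 := by
    intro c d
    rw [hc, hc, omo d c]; ring
  simp only [h1, Finset.sum_add_distrib]
  have z2 : ∑ c, ∑ d, (e d * ((u b d * v a d) * (e c * (l c x * l c x))) +
        e d * ((u b d * (V x * l a x)) * (e c * (l c x * om c d))) -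
        e d * ((v a d * (V x * l b x)) * (e c * (l c x * om c d)))) / 4 =
      (V x * l a x * (∑ d, e d * (u b d * la e l d x)) -
        V x * l b x * ∑ d, e d * (v a d * la e l d x)) / 4 := by
    rw [Finset.sum_comm]
    simp only [← Finset.sum_div, Finset.sum_add_distrib, Finset.sum_sub_distrib,
      ← Finset.mul_sum, h.null x hx, lom]
    simp only [mul_zero, Finset.sum_const_zero, Finset.mul_sum, zero_add]
    congr 1
    congr 1
    · exact Finset.sum_congr rfl fun d _ => by ring
    · exact Finset.sum_congr rfl fun d _ => by ring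
  rw [z2]
  simp only [← Finset.sum_div, Finset.sum_add_distrib, Finset.sum_sub_distrib, ← Finset.mul_sum,
    h.null x hx, lom, lu, lv]
  have e6 : ∀ c, e c * (l c x * u a c * mu e l V b x) =
      (e c * (l c x * u a c)) * mu e l V b x := fun c => by ring
  have e7 : ∀ c, e c * (l c x * v b c * -mu e l V a x) =
      (e c * (l c x * v b c)) * (-mu e l V a x) := fun c => by ring
  have e9 : ∀ c, e c * (V x * l a x * v b c * la e l c x) =
      V x * l a x * (e c * (v b c * la e l c x)) := fun c => by ring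
  have e10 : ∀ c, e c * (V x * l b x * u a c * la e l c x) =
      V x * l b x * (e c * (u a c * la e l c x)) := fun c => by ring
  simp only [e6, e7, e9, e10, ← Finset.sum_mul, ← Finset.mul_sum, lu, lv, mul_zero,
    Finset.sum_const_zero]
  have e8 : ∑ c, e c * ∑ d, e d * (om c d * om d c) = - (2 * (lS e l x - lT e l x)) := by
    rw [← hoo]
    simp only [← Finset.mul_sum]
  rw [e8]
  have q1 := luv a
  have q2 := luv b
  linear_combination (V x * l b x / 4) * q1 + (V x * l a x / 4) * q2

theorem ric_eq {x : E m} (hx : x ∈ U) (a b : Fin m) :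
    ric g a b x = Rl e l V a b x + (lk e l V x * dh e l V a b x +
      V x * lth e l x * dh e l V a b x + V x * lk e l (dh e l V a b) x) / 2 -
      (mu e l V a x * mu e l V b x + V x * (l a x * aA e l V b x + l b x * aA e l V a x) +
        V x ^ 3 * aa e l x * (l a x * l b x) -
        V x ^ 2 * (lS e l x - lT e l x) * (l a x * l b x)) / 2 := by
  have h1 : ∑ k, pd b (chr g k a k) x = 0 := by
    have e1 : HP b (fun y => ∑ k, chr g k a k y) _ x :=
      HP.sum _ fun k _ => h.hp_chr hx b k a k
    have e2 : HP b (fun y => ∑ k, chr g k a k y) 0 x :=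
      hp_congrU h.op hx (fun y hy => h.chr_tr hy a) (HP.const b 0 x)
    rw [← e1.pd.symm.trans e2.pd]
    exact Finset.sum_congr rfl fun k _ => (h.hp_chr hx b k a k).pd
  have h2 : ∑ k, ∑ l, chr g k k l x * chr g l a b x = 0 := by
    rw [Finset.sum_comm]
    simp only [← Finset.sum_mul, h.chr_tr' hx, zero_mul, Finset.sum_const_zero]
  unfold ric
  simp only [Finset.sum_add_distrib, Finset.sum_sub_distrib, h1, h2, h.quad hx, h.div_chr hx]
  ring

end KLn

end Vale.Agent.P366.H896
end
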