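import Vale.Agent.P366.H208.G.Loc

/-! Metrics `g = δ + F df ⊗ df`: the divergence of the third part of the flux field. -/

open MeasureTheory Metric Filter Topology Set
open scoped ContDiff ENNReal

noncomputable section
namespace Vale.Agent.P366.FG
open Vale.Agent.P366.Stmt
open Vale.Agent.H45G (hp smooth_pd sym2 HP_inv HP_cast lap pv HP_lap HP_pv qf HP_W2 W2 smooth_lap
  smooth_pv)
open Vale.Agent.P366.T2 (HP)

variable {n : ℕ} {f F u : Stmt.E n → ℝ} {y : Stmt.E n}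

lemma hf_pv (f : Stmt.E n → ℝ) (i : Fin n) (x : Stmt.E n) : hf f i x = pv f i x :=
  Finset.sum_congr rfl fun _ _ => mul_comm _ _

lemma cf_eq (f : Stmt.E n → ℝ) (i : Fin n) :
    cf f i = fun x => Stmt.pd i f x * lap f x - pv f i x := by
  funext x
  unfold cf
  rw [hf_pv]
  rfl

lemma smooth_cf (hf : Stmt.Smooth f) (i : Fin n) : Stmt.Smooth (cf f i) := by
  rw [cf_eq]
  exact (ContDiff.mul (smooth_pd hf i) (smooth_lap hf)).sub (smooth_pv hf i)

/-- the divergence of `Δf ∂f - D²f(∂f)` -/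
lemma div_cf (hf : Stmt.Smooth f) (y : Stmt.E n) : ∑ i, Stmt.pd i (cf f i) y =
    (∑ j, Stmt.pd j (Stmt.pd j f) y) ^ 2 - ∑ i, ∑ j, Stmt.pd i (Stmt.pd j f) y ^ 2 := by
  have hV : ∀ i, HP i (cf f i) _ y := fun i => by
    rw [cf_eq]
    exact ((hp (smooth_pd hf i) i y).mul (HP_lap hf i y)).sub (HP_pv hf i i y)
  have h1 : ∀ i, Stmt.pd i (cf f i) y = _ := fun i => (hV i).pd
  simp only [h1]
  have hsym : ∑ i, Stmt.pd i f y * ∑ k, Stmt.pd i (Stmt.pd k (Stmt.pd k f)) y =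
      ∑ i, ∑ l, Stmt.pd l f y * Stmt.pd i (Stmt.pd i (Stmt.pd l f)) y := by
    rw [Finset.sum_comm]
    refine Finset.sum_congr rfl fun i _ => ?_
    rw [Finset.mul_sum]
    refine Finset.sum_congr rfl fun l _ => ?_
    rw [sym2 (smooth_pd hf l) i l, sym2 hf i l]
  simp only [Finset.sum_sub_distrib, Finset.sum_add_distrib, ← Finset.sum_mul]
  rw [hsym]
  have e2 : ∑ i, qf f i i y = ∑ i, ∑ j, Stmt.pd i (Stmt.pd j f) y ^ 2 :=
    Finset.sum_congr rfl fun i _ => Finset.sum_congr rfl fun j _ => (sq _).symm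
  have e3 : lap f y = ∑ j, Stmt.pd j (Stmt.pd j f) y := rfl
  rw [e2, e3]
  ring

lemma HP_wsq (hf : Stmt.Smooth f) (hF : Stmt.Smooth F) (k : Fin n) (y : Stmt.E n) :
    HP k (wsq f F) ((∑ j, Stmt.pd j f y ^ 2) * Stmt.pd k F y +
      2 * F y * FG.hf f k y) y := by
  have h0 : wsq f F = fun x => 1 + F x * (W2 f x - 1) := by
    funext x
    unfold wsq W2
    ring
  rw [h0]
  have h := (HP.const k 1 y).add ((hp hF k y).mul ((HP_W2 hf k y).sub (HP.const k 1 y)))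
  refine HP_cast h ?_
  rw [hf_pv]
  unfold W2
  ring

lemma HP_X2 (hf : Stmt.Smooth f) (hF : Stmt.Smooth F) (hu : Stmt.Smooth u)
    (hw : wsq f F y ≠ 0) (k i : Fin n) : HP k (X2 f F u i)
      (u y * Stmt.pd k u y * cf f i y / wsq f F y +
      u y ^ 2 * Stmt.pd k (cf f i) y / (2 * wsq f F y) - u y ^ 2 * cf f i y *
      ((∑ j, Stmt.pd j f y ^ 2) * Stmt.pd k F y + 2 * F y * FG.hf f k y) /
      (2 * wsq f F y ^ 2)) y := by
  have h0 : X2 f F u i = fun x => (u x * u x * cf f i x) * (1 / 2 * (wsq f F x)⁻¹) := by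
    funext x
    unfold X2
    rw [div_eq_mul_inv, mul_inv]
    ring
  rw [h0]
  have h := (((hp hu k y).mul (hp hu k y)).mul (hp (smooth_cf hf i) k y)).mul
    ((HP_inv (HP_wsq hf hF k y) hw).const_mul (1 / 2))
  refine HP_cast h ?_
  field_simp
  ring

/-- the divergence of the third part of the flux field -/
lemma div_X2 (hf : Stmt.Smooth f) (hF : Stmt.Smooth F) (hu : Stmt.Smooth u)
    (hw : wsq f F y ≠ 0) : ∑ i, Stmt.pd i (X2 f F u i) y =
      u y * (∑ i, Stmt.pd i u y * cf f i y) / wsq f F y +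
      u y ^ 2 * ((∑ j, Stmt.pd j (Stmt.pd j f) y) ^ 2 -
        ∑ i, ∑ j, Stmt.pd i (Stmt.pd j f) y ^ 2) / (2 * wsq f F y) -
      u y ^ 2 * (∑ i, ((∑ j, Stmt.pd j f y ^ 2) * Stmt.pd i F y + 2 * F y * FG.hf f i y) *
        cf f i y) / (2 * wsq f F y ^ 2) := by
  have h1 : ∀ i, Stmt.pd i (X2 f F u i) y = _ := fun i => (HP_X2 hf hF hu hw i i).pd
  rw [← div_cf hf]
  simp only [h1, Finset.mul_sum, Finset.sum_div]
  rw [← Finset.sum_add_distrib, ← Finset.sum_sub_distrib]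
  exact Finset.sum_congr rfl fun i _ => by ring

end Vale.Agent.P366.FG
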